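import Mathlib

/-!
Generalized circuits (Chen-Deng-Teng, Rubinstein) in the conventions of the problem file.
A circuit on the node set `V` is given by attaching to every node at most one gate that outputs it.
-/

namespace Vale.Agent.P330

/-- The kind of a gate together with its input nodes and its parameter
(the output node is the node the gate is attached to). -/
inductive GateKind (V : Type) : Type
  | const (α : ℚ)
  | scale (α : ℚ) (a : V)
  | copy (a : V)
  | add (a b : V)
  | sub (a b : V)
  | less (a b : V)
  | neg (a : V)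
  | disj (a b : V)
  | conj (a b : V)

/-- A generalized circuit on the node set `V`: every node is the output of at most one gate,
there is at least one gate, parameters are rationals in `[0,1]`, cycles are allowed. -/
structure GenCircuit (V : Type) where
  gate : V → Option (GateKind V)
  nonempty : ∃ v, gate v ≠ none
  const_param : ∀ v α, gate v = some (GateKind.const α) → 0 ≤ α ∧ α ≤ 1
  scale_param : ∀ v α a, gate v = some (GateKind.scale α a) → 0 ≤ α ∧ α ≤ 1

/-- `k.Sat ε x z`: the gate of kind `k` with output node `z` is `ε`-satisfied by `x`. -/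
def GateKind.Sat {V : Type} (ε : ℚ) (x : V → ℚ) (z : V) : GateKind V → Prop
  | .const α => |x z - α| ≤ ε
  | .scale α a => |x z - α * x a| ≤ ε
  | .copy a => |x z - x a| ≤ ε
  | .add a b => |x z - min (x a + x b) 1| ≤ ε
  | .sub a b => |x z - max (x a - x b) 0| ≤ ε
  | .less a b => (x a < x b - ε → 1 - ε ≤ x z) ∧ (x b + ε < x a → x z ≤ ε)
  | .neg a => (x a ≤ ε → 1 - ε ≤ x z) ∧ (1 - ε ≤ x a → x z ≤ ε)
  | .disj a b => ((1 - ε ≤ x a ∨ 1 - ε ≤ x b) → 1 - ε ≤ x z) ∧ ((x a ≤ ε ∧ x b ≤ ε) → x z ≤ ε)
  | .conj a b => ((1 - ε ≤ x a ∧ 1 - ε ≤ x b) → 1 - ε ≤ x z) ∧ ((x a ≤ ε ∨ x b ≤ ε) → x z ≤ ε)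

/-- The local rule: the new value of a node, computed from the gate attached to it and the
current values `s` of its inputs. Arithmetic gates get a value that does not depend on `s`. -/
def localRule {V : Type} (ε : ℚ) (s : V → ℚ) : Option (GateKind V) → ℚ
  | none => 1 / 2
  | some (.const α) => max ε (min α (1 - ε))
  | some (.scale α _) => max (α / 2) ε
  | some (.copy _) => 1 / 2
  | some (.add _ _) => 1 - ε
  | some (.sub _ _) => ε
  | some (.less a b) => if s a < s b - ε then 1 - ε else if s b + ε < s a then ε else 1 / 2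
  | some (.neg a) => if s a ≤ ε then 1 - ε else if 1 - ε ≤ s a then ε else 1 / 2
  | some (.disj a b) =>
      if 1 - ε ≤ s a ∨ 1 - ε ≤ s b then 1 - ε else if s a ≤ ε ∧ s b ≤ ε then ε else 1 / 2
  | some (.conj a b) =>
      if s a ≤ ε ∨ s b ≤ ε then ε else if 1 - ε ≤ s a ∧ 1 - ε ≤ s b then 1 - ε else 1 / 2

/-- One synchronous round: every node recomputes its value by the local rule. -/
def GenCircuit.round {V : Type} (G : GenCircuit V) (ε : ℚ) (s : V → ℚ) : V → ℚ :=
  fun v => localRule ε s (G.gate v)

/-- The assignment obtained from the all-`1/2` assignment after `|V|` synchronous rounds. -/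
def GenCircuit.solve {V : Type} [Fintype V] (G : GenCircuit V) (ε : ℚ) : V → ℚ :=
  (G.round ε)^[Fintype.card V] (fun _ => 1 / 2)

end Vale.Agent.P330
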