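import Mathlib
import Vale.Agent.P330.Defs

/-!
The problem Pure-Circuit of Deligkas, Fearnley, Hollender and Melissourgos, and a map from its
instances to generalized circuits.
-/

namespace Vale.Agent.P330

/-- The three values `0`, `1`, `⊥` of a node of a Pure-Circuit instance. -/
inductive Tri : Type
  | zero | one | bot
  deriving DecidableEq

/-- The gate that outputs a node, with its input nodes.  A PURIFY gate with input `u` and outputs
`v`, `w` is recorded as `purFst u w` at `v` and as `purSnd u v` at `w`. -/
inductive PKind (N : Type) : Type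
  | neg (u : N)
  | disj (u w : N)
  | conj (u w : N)
  | nor (u w : N)
  | purFst (u w : N)
  | purSnd (u v : N)

/-- An instance of Pure-Circuit on the node set `N`: every node is the output of at most one gate,
there is at least one gate, cycles are allowed. -/
structure PureCircuit (N : Type) where
  gate : N → Option (PKind N)
  nonempty : ∃ v, gate v ≠ none
  pair_fst : ∀ v u w, gate v = some (PKind.purFst u w) → gate w = some (PKind.purSnd u v)
  pair_snd : ∀ w u v, gate w = some (PKind.purSnd u v) → gate v = some (PKind.purFst u w)

/-- `k.Sat x z`: the constraint of the gate of kind `k` at its output node `z`. -/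
def PKind.Sat {N : Type} (x : N → Tri) (z : N) : PKind N → Prop
  | .neg u => (x u = Tri.zero → x z = Tri.one) ∧ (x u = Tri.one → x z = Tri.zero)
  | .disj u w => ((x u = Tri.one ∨ x w = Tri.one) → x z = Tri.one) ∧
      ((x u = Tri.zero ∧ x w = Tri.zero) → x z = Tri.zero)
  | .conj u w => ((x u = Tri.one ∧ x w = Tri.one) → x z = Tri.one) ∧
      ((x u = Tri.zero ∨ x w = Tri.zero) → x z = Tri.zero)
  | .nor u w => ((x u = Tri.zero ∧ x w = Tri.zero) → x z = Tri.one) ∧
      ((x u = Tri.one ∨ x w = Tri.one) → x z = Tri.zero)
  | .purFst u w => (x z ≠ Tri.bot ∨ x w ≠ Tri.bot) ∧ (x u = Tri.zero → x z = Tri.zero) ∧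
      (x u = Tri.one → x z = Tri.one)
  | .purSnd u _ => (x u = Tri.zero → x z = Tri.zero) ∧ (x u = Tri.one → x z = Tri.one)

/-- A solution of a Pure-Circuit instance. -/
def PureCircuit.IsSolution {N : Type} (C : PureCircuit N) (x : N → Tri) : Prop :=
  ∀ v k, C.gate v = some k → k.Sat x v

/-- Names of the auxiliary nodes attached to a node. -/
inductive Aux : Type
  | nn | one | e1 | x1 | h1 | g1 | e2 | x2 | h2 | g2 | w2 | orr
  deriving DecidableEq

/-- The auxiliary gates of a PURIFY gate with input `u` whose first output is `z`. -/
def purAux {N : Type} (u z : N) : Aux → Option (GateKind (N ⊕ (N × Aux)))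
  | .nn => some (.neg (.inl u))
  | .one => some (.const 1)
  | .e1 => some (.sub (.inl u) (.inr (z, .nn)))
  | .x1 => some (.sub (.inr (z, .one)) (.inr (z, .e1)))
  | .h1 => some (.less (.inr (z, .x1)) (.inl u))
  | .g1 => some (.less (.inr (z, .nn)) (.inr (z, .e1)))
  | .e2 => some (.sub (.inr (z, .nn)) (.inl u))
  | .x2 => some (.sub (.inr (z, .one)) (.inr (z, .e2)))
  | .h2 => some (.less (.inr (z, .x2)) (.inr (z, .nn)))
  | .g2 => some (.less (.inl u) (.inr (z, .e2)))
  | .w2 => some (.conj (.inr (z, .h2)) (.inr (z, .g2)))
  | .orr => none

/-- The auxiliary gate of a NOR gate with inputs `u`, `w`. -/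
def norAux {N : Type} (u w : N) : Aux → Option (GateKind (N ⊕ (N × Aux)))
  | .orr => some (.disj (.inl u) (.inl w))
  | _ => none

/-- The gates of the generalized circuit built from a Pure-Circuit instance.  Its nodes are the
nodes of the instance and twelve auxiliary nodes for each of them (most of them unused). -/
def PureCircuit.genGate {N : Type} (C : PureCircuit N) :
    N ⊕ (N × Aux) → Option (GateKind (N ⊕ (N × Aux)))
  | .inl z =>
    match C.gate z with
    | none => none
    | some (.neg u) => some (.neg (.inl u))
    | some (.disj u w) => some (.disj (.inl u) (.inl w))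
    | some (.conj u w) => some (.conj (.inl u) (.inl w))
    | some (.nor _ _) => some (.neg (.inr (z, .orr)))
    | some (.purFst _ _) => some (.conj (.inr (z, .h1)) (.inr (z, .g1)))
    | some (.purSnd _ v) => some (.neg (.inr (v, .w2)))
  | .inr (z, t) =>
    match C.gate z with
    | some (.nor u w) => norAux u w t
    | some (.purFst u _) => purAux u z t
    | _ => none

/-- Reading a value of a generalized circuit as one of the three values. -/
def dec (ε t : ℚ) : Tri := if t ≤ ε then Tri.zero else if 1 - ε ≤ t then Tri.one else Tri.bot

end Vale.Agent.P330
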