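import Mathlib
import Vale.Agent.P330.PureDefs

/-!
From generalized circuits (any precision) to Pure-Circuit.  A node of the generalized circuit is
represented by a bundle of `k + 1` nodes of the Pure-Circuit instance; its value is the fraction of
ones in the bundle.
-/

namespace Vale.Agent.P330

/-- The index `min i n` as an element of `Fin (n + 1)`. -/
def cf (n i : ℕ) : Fin (n + 1) := ⟨min i n, by omega⟩

/-- Names of the nodes of the gadget that simulates one gate.
`out`: the bundle; `oc`: carries of the output chain; `p1 ... zero`: construction of the constants;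
`le b i t`, `lc b i t`: the `t`-th copy and the `t`-th carry of the chain of PURIFY gates that
copies the `i`-th bit of the first (`b = false`) or second (`b = true`) source;
`ng i t`: the negation of `le true i t`;
`T i j`, `A i j`: the table of thresholds
(`T i j`: at least `j + 1` of the first `i + 1` literals are one). -/
inductive Gad (k : ℕ) : Type
  | out (i : Fin (k + 1))
  | oc (i : Fin (k + 1))
  | p1 | p2 | n1 | n2 | o1 | o2 | one | zero
  | le (b : Bool) (i : Fin (k + 1)) (t : Fin (2 * k + 1 + 1))
  | lc (b : Bool) (i : Fin (k + 1)) (t : Fin (2 * k + 1 + 1))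
  | ng (i : Fin (k + 1)) (t : Fin (2 * k + 1 + 1))
  | T (i j : Fin ((2 * k + 2) * (2 * k + 2) + 1))
  | A (i j : Fin ((2 * k + 2) * (2 * k + 2) + 1))
  deriving DecidableEq, Fintype

/-- A source of `k + 1` bits: the bundle of a node, or a constant. -/
inductive Src (V : Type) : Type
  | node (a : V)
  | zero
  | one

/-- The description of a gadget: two sources, whether the second one is negated, the mode
(`arith = true`: the `i`-th output bit says that at least `thr i` literals are one;
`arith = false`: all output bits are copies of the bit saying that at least `thr 0` literals are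
one). -/
structure Desc (V : Type) where
  s1 : Src V
  s2 : Src V
  neg2 : Bool
  arith : Bool
  thr : ℕ → ℕ

/-- The bundle of `a` if `a` is kept, the constant zero otherwise. -/
def srcOf {V : Type} (good : V → Bool) (a : V) : Src V := if good a = true then .node a else .zero

/-- The gadget of each kind of gate.  Every bit of a source is copied `2 k + 2` times. -/
def GateKind.desc {V : Type} (k : ℕ) (good : V → Bool) : GateKind V → Desc V
  | .const α =>
      if α = 0 then ⟨.zero, .zero, false, true, fun i => (2 * k + 2) * (i + 1)⟩
      else ⟨.one, .zero, false, true, fun i => ⌈(((2 * k + 2) * (i + 1) : ℕ) : ℚ) / α⌉₊⟩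
  | .scale α a =>
      if α = 0 then ⟨.zero, .zero, false, true, fun i => (2 * k + 2) * (i + 1)⟩
      else ⟨srcOf good a, .zero, false, true, fun i => ⌈(((2 * k + 2) * (i + 1) : ℕ) : ℚ) / α⌉₊⟩
  | .copy a => ⟨srcOf good a, .zero, false, true, fun i => (2 * k + 2) * (i + 1)⟩
  | .add a b => ⟨srcOf good a, srcOf good b, false, true, fun i => (2 * k + 2) * (i + 1)⟩
  | .sub a b => ⟨srcOf good a, srcOf good b, true, true, fun i => (2 * k + 2) * (k + 1 + (i + 1))⟩
  | .less a b => ⟨srcOf good b, srcOf good a, true, false, fun _ => (2 * k + 2) * (k + 1)⟩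
  | .neg a => ⟨.zero, srcOf good a, true, false, fun _ => (2 * k + 2) * ((k + 2) / 2)⟩
  | .disj a b => ⟨srcOf good a, srcOf good b, false, false, fun _ => (2 * k + 2) * ((k + 2) / 2)⟩
  | .conj a b =>
      ⟨srcOf good a, srcOf good b, false, false, fun _ => (2 * k + 2) * (k + 1 + (k + 2) / 2)⟩

/-- The node carrying the `i`-th bit of a source, seen from the gadget of `z`. -/
def srcNode {V : Type} {k : ℕ} (z : V) : Src V → Fin (k + 1) → V × Gad k
  | .node a, i => (a, .out i)
  | .zero, _ => (z, .zero)
  | .one, _ => (z, .one)

/-- The name of the bit saying that at least `j` of the first `i` literals are one. -/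
def tn (k i j : ℕ) : Gad k :=
  if j = 0 then .one
  else if i = 0 then .zero
  else if (2 * k + 2) * (2 * k + 2) < j then .zero
  else .T (cf _ (i - 1)) (cf _ (j - 1))

/-- The name of the `κ`-th literal: literal `q (2 k + 2) + t` is the `t`-th copy of the `q`-th bit of
the first source if `q ≤ k`, and the `t`-th copy (negated or not) of the `(q - k - 1)`-th bit
of the second source otherwise. -/
def litN {V : Type} (k : ℕ) (d : Desc V) (κ : ℕ) : Gad k :=
  if κ / (2 * k + 2) < k + 1 then .le false (cf _ (κ / (2 * k + 2))) (cf _ (κ % (2 * k + 2)))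
  else if d.neg2 = true then .ng (cf _ (κ / (2 * k + 2) - (k + 1))) (cf _ (κ % (2 * k + 2)))
  else .le true (cf _ (κ / (2 * k + 2) - (k + 1))) (cf _ (κ % (2 * k + 2)))

/-- The gates of the gadget of `z`. -/
def gadGate {V : Type} {k : ℕ} (z : V) (d : Desc V) : Gad k → Option (PKind (V × Gad k))
  | .out i =>
      if d.arith = true then
        some (.disj (z, tn k ((2 * k + 2) * (2 * k + 2)) (d.thr i))
          (z, tn k ((2 * k + 2) * (2 * k + 2)) (d.thr i)))
      else
        some (.purFst (if i.val = 0 then (z, tn k ((2 * k + 2) * (2 * k + 2)) (d.thr 0))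
          else (z, .oc (cf _ (i.val - 1)))) (z, .oc i))
  | .oc i =>
      if d.arith = true then none
      else
        some (.purSnd (if i.val = 0 then (z, tn k ((2 * k + 2) * (2 * k + 2)) (d.thr 0))
          else (z, .oc (cf _ (i.val - 1)))) (z, .out i))
  | .p1 => some (.purFst (z, .p1) (z, .p2))
  | .p2 => some (.purSnd (z, .p1) (z, .p1))
  | .n1 => some (.neg (z, .p1))
  | .n2 => some (.neg (z, .p2))
  | .o1 => some (.disj (z, .p1) (z, .n1))
  | .o2 => some (.disj (z, .p2) (z, .n2))
  | .one => some (.disj (z, .o1) (z, .o2))
  | .zero => some (.neg (z, .one))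
  | .le b i t =>
      some (.purFst (if t.val = 0 then srcNode z (if b = true then d.s2 else d.s1) i
        else (z, .lc b i (cf _ (t.val - 1)))) (z, .lc b i t))
  | .lc b i t =>
      some (.purSnd (if t.val = 0 then srcNode z (if b = true then d.s2 else d.s1) i
        else (z, .lc b i (cf _ (t.val - 1)))) (z, .le b i t))
  | .ng i t => some (.neg (z, .le true i t))
  | .T i j => some (.disj (z, tn k i.val (j.val + 1)) (z, .A i j))
  | .A i j => some (.conj (z, tn k i.val j.val) (z, litN k d i.val))

/-- The gates of the Pure-Circuit instance: one gadget for every gate of `G`. -/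
def GenCircuit.pureGate {V : Type} (G : GenCircuit V) (k : ℕ) (good : V → Bool) :
    V × Gad k → Option (PKind (V × Gad k))
  | (z, g) =>
    match G.gate z with
    | none => none
    | some kd => gadGate z (kd.desc k good) g

/-- The number of ones in the bundle of `v`. -/
def bundleOnes {V : Type} {k : ℕ} (y : V × Gad k → Tri) (v : V) : ℕ :=
  Nat.count (fun i => y (v, .out (cf k i)) = Tri.one) (k + 1)

/-- Reading an assignment of the Pure-Circuit instance as an assignment of `G`: the fraction of
ones in the bundle for the nodes that are kept, zero for the others. -/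
def readOff {V : Type} {k : ℕ} (good : V → Bool) (y : V × Gad k → Tri) (v : V) : ℚ :=
  if good v = true then (bundleOnes y v : ℚ) / ((k : ℚ) + 1) else 0

/-- `kd.Reads v`: the node `v` is an input of the gate of kind `kd`. -/
def GateKind.Reads {V : Type} : GateKind V → V → Prop
  | .const _, _ => False
  | .scale _ a, v => v = a
  | .copy a, v => v = a
  | .add a b, v => v = a ∨ v = b
  | .sub a b, v => v = a ∨ v = b
  | .less a b, v => v = a ∨ v = b
  | .neg a, v => v = a
  | .disj a b, v => v = a ∨ v = b
  | .conj a b, v => v = a ∨ v = b

end Vale.Agent.P330
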