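import Mathlib
import Vale.Agent.P330.AmpDefs

/-!
The Pure-Circuit instance attached to a generalized circuit.
-/

namespace Vale.Agent.P330

variable {V : Type} {k : ℕ}

theorem gadGate_fst {z : V} {d : Desc V} {g : Gad k} {u w : V × Gad k}
    (h : gadGate z d g = some (PKind.purFst u w)) :
    ∃ g', w = (z, g') ∧ gadGate z d g' = some (PKind.purSnd u (z, g)) := by
  cases g with
  | out i =>
    by_cases ha : d.arith = true
    · simp [gadGate, ha] at h
    · simp only [gadGate, ha, if_false, Option.some.injEq, PKind.purFst.injEq,
        Bool.false_eq_true] at h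
      refine ⟨.oc i, h.2.symm, ?_⟩
      simp only [gadGate, ha, if_false, Bool.false_eq_true]
      rw [h.1]
  | oc i =>
    by_cases ha : d.arith = true
    · simp [gadGate, ha] at h
    · simp [gadGate, ha] at h
  | p1 =>
    simp only [gadGate, Option.some.injEq, PKind.purFst.injEq] at h
    refine ⟨.p2, h.2.symm, ?_⟩
    simp only [gadGate]
    rw [h.1]
  | le b i t =>
    simp only [gadGate, Option.some.injEq, PKind.purFst.injEq] at h
    refine ⟨.lc b i t, h.2.symm, ?_⟩
    simp only [gadGate]
    rw [h.1]
  | p2 => simp [gadGate] at h
  | n1 => simp [gadGate] at h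
  | n2 => simp [gadGate] at h
  | o1 => simp [gadGate] at h
  | o2 => simp [gadGate] at h
  | one => simp [gadGate] at h
  | zero => simp [gadGate] at h
  | lc b i t => simp [gadGate] at h
  | ng i t => simp [gadGate] at h
  | T i j => simp [gadGate] at h
  | A i j => simp [gadGate] at h

theorem gadGate_snd {z : V} {d : Desc V} {g : Gad k} {u w : V × Gad k}
    (h : gadGate z d g = some (PKind.purSnd u w)) :
    ∃ g', w = (z, g') ∧ gadGate z d g' = some (PKind.purFst u (z, g)) := by
  cases g with
  | oc i =>
    by_cases ha : d.arith = true
    · simp [gadGate, ha] at h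
    · simp only [gadGate, ha, if_false, Option.some.injEq, PKind.purSnd.injEq,
        Bool.false_eq_true] at h
      refine ⟨.out i, h.2.symm, ?_⟩
      simp only [gadGate, ha, if_false, Bool.false_eq_true]
      rw [h.1]
  | out i =>
    by_cases ha : d.arith = true
    · simp [gadGate, ha] at h
    · simp [gadGate, ha] at h
  | p2 =>
    simp only [gadGate, Option.some.injEq, PKind.purSnd.injEq] at h
    refine ⟨.p1, h.2.symm, ?_⟩
    simp only [gadGate]
    rw [h.1]
  | lc b i t =>
    simp only [gadGate, Option.some.injEq, PKind.purSnd.injEq] at h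
    refine ⟨.le b i t, h.2.symm, ?_⟩
    simp only [gadGate]
    rw [h.1]
  | p1 => simp [gadGate] at h
  | n1 => simp [gadGate] at h
  | n2 => simp [gadGate] at h
  | o1 => simp [gadGate] at h
  | o2 => simp [gadGate] at h
  | one => simp [gadGate] at h
  | zero => simp [gadGate] at h
  | le b i t => simp [gadGate] at h
  | ng i t => simp [gadGate] at h
  | T i j => simp [gadGate] at h
  | A i j => simp [gadGate] at h

theorem pureGate_some (G : GenCircuit V) (good : V → Bool) {z : V} {kd : GateKind V}
    (hg : G.gate z = some kd) (g : Gad k) :
    G.pureGate k good (z, g) = gadGate z (kd.desc k good) g := by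
  simp only [GenCircuit.pureGate, hg]

theorem pureGate_none (G : GenCircuit V) (good : V → Bool) {z : V}
    (hg : G.gate z = none) (g : Gad k) : G.pureGate k good (z, g) = none := by
  simp only [GenCircuit.pureGate, hg]

/-- The Pure-Circuit instance that simulates `G` with bundles of `k + 1` bits; the nodes `v` with
`good v = false` are replaced by the constant zero wherever they are read. -/
def GenCircuit.toPure (G : GenCircuit V) (k : ℕ) (good : V → Bool) : PureCircuit (V × Gad k) where
  gate := G.pureGate k good
  nonempty := by
    obtain ⟨v, hv⟩ := G.nonempty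
    refine ⟨(v, .one), ?_⟩
    rcases hg : G.gate v with _ | kd
    · exact absurd hg hv
    · rw [pureGate_some G good hg]
      simp [gadGate]
  pair_fst := by
    rintro ⟨z, g⟩ u w h
    rcases hg : G.gate z with _ | kd
    · rw [pureGate_none G good hg] at h
      simp at h
    · rw [pureGate_some G good hg] at h
      obtain ⟨g', rfl, h'⟩ := gadGate_fst h
      rw [pureGate_some G good hg]
      exact h'
  pair_snd := by
    rintro ⟨z, g⟩ u w h
    rcases hg : G.gate z with _ | kd
    · rw [pureGate_none G good hg] at h
      simp at h
    · rw [pureGate_some G good hg] at h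
      obtain ⟨g', rfl, h'⟩ := gadGate_snd h
      rw [pureGate_some G good hg]
      exact h'

end Vale.Agent.P330
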