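import Mathlib
import Vale.Agent.P330.PureDefs

/-!
From Pure-Circuit to generalized circuits, for every `ε < 1/6`.
-/

namespace Vale.Agent.P330

variable {N : Type}

theorem purAux_const {u z : N} {t : Aux} {α : ℚ}
    (h : purAux u z t = some (GateKind.const α)) : α = 1 := by
  cases t <;> simp only [purAux, Option.some.injEq, reduceCtorEq, GateKind.const.injEq] at h
  exact h.symm

theorem purAux_not_scale {u z : N} {t : Aux} {α : ℚ} {a : N ⊕ (N × Aux)} :
    purAux u z t ≠ some (GateKind.scale α a) := by
  cases t <;> simp [purAux]

theorem norAux_not_const {u w : N} {t : Aux} {α : ℚ} :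
    norAux u w t ≠ some (GateKind.const α) := by
  cases t <;> simp [norAux]

theorem norAux_not_scale {u w : N} {t : Aux} {α : ℚ} {a : N ⊕ (N × Aux)} :
    norAux u w t ≠ some (GateKind.scale α a) := by
  cases t <;> simp [norAux]

theorem genGate_const (C : PureCircuit N) (v : N ⊕ (N × Aux)) (α : ℚ)
    (h : C.genGate v = some (GateKind.const α)) : α = 1 := by
  rcases v with z | ⟨z, t⟩
  · simp only [PureCircuit.genGate] at h
    rcases hg : C.gate z with _ | k
    · rw [hg] at h; simp at h
    · rw [hg] at h
      cases k <;> simp at h
  · simp only [PureCircuit.genGate] at h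
    rcases hg : C.gate z with _ | k
    · rw [hg] at h; simp at h
    · rw [hg] at h
      cases k with
      | neg u => simp at h
      | disj u w => simp at h
      | conj u w => simp at h
      | nor u w => exact absurd h norAux_not_const
      | purFst u w => exact purAux_const h
      | purSnd u w => simp at h

theorem genGate_not_scale (C : PureCircuit N) (v : N ⊕ (N × Aux)) (α : ℚ) (a : N ⊕ (N × Aux)) :
    C.genGate v ≠ some (GateKind.scale α a) := by
  intro h
  rcases v with z | ⟨z, t⟩
  · simp only [PureCircuit.genGate] at h
    rcases hg : C.gate z with _ | k
    · rw [hg] at h; simp at h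
    · rw [hg] at h
      cases k <;> simp at h
  · simp only [PureCircuit.genGate] at h
    rcases hg : C.gate z with _ | k
    · rw [hg] at h; simp at h
    · rw [hg] at h
      cases k with
      | neg u => simp at h
      | disj u w => simp at h
      | conj u w => simp at h
      | nor u w => exact absurd h norAux_not_scale
      | purFst u w => exact absurd h purAux_not_scale
      | purSnd u w => simp at h

/-- The generalized circuit built from a Pure-Circuit instance. -/
def PureCircuit.toGen (C : PureCircuit N) : GenCircuit (N ⊕ (N × Aux)) where
  gate := C.genGate
  nonempty := by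
    obtain ⟨v, hv⟩ := C.nonempty
    refine ⟨Sum.inl v, ?_⟩
    simp only [PureCircuit.genGate]
    rcases hg : C.gate v with _ | k
    · exact absurd hg hv
    · cases k <;> simp
  const_param := by
    intro v α h
    rw [genGate_const C v α h]
    constructor <;> norm_num
  scale_param := by
    intro v α a h
    exact absurd h (genGate_not_scale C v α a)

end Vale.Agent.P330
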