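import Mathlib
import Vale.Agent.P330.AmpPure
import Vale.Agent.P330.ToGen

/-!
The nodes that are kept, the amplified circuit and the map back.
-/

namespace Vale.Agent.P330

variable {V : Type}

/-- The gates that read the node `v`. -/
def GenCircuit.readers (G : GenCircuit V) (v : V) : Set V :=
  {z | ∃ kd, G.gate z = some kd ∧ kd.Reads v}

open Classical in
/-- The nodes that are kept: they carry a gate and are read by at most `D` gates. -/
noncomputable def GenCircuit.keep (G : GenCircuit V) (D : ℕ) (v : V) : Bool :=
  decide (G.gate v ≠ none ∧ (G.readers v).ncard ≤ D)

/-- The generalized circuit that simulates `G`: first the Pure-Circuit instance with bundles of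
`k + 1` bits in which the nodes read by more than `D` gates are cut, then its translation. -/
noncomputable def GenCircuit.amp (G : GenCircuit V) (k D : ℕ) :
    GenCircuit ((V × Gad k) ⊕ ((V × Gad k) × Aux)) :=
  (G.toPure k (G.keep D)).toGen

/-- Reading an assignment of `G.amp k D` as an assignment of `G`: round the values of the nodes of
the Pure-Circuit instance, then take the fraction of ones in each bundle. -/
noncomputable def GenCircuit.back (G : GenCircuit V) (k D : ℕ) (ε : ℚ)
    (x : (V × Gad k) ⊕ ((V × Gad k) × Aux) → ℚ) : V → ℚ :=
  readOff (G.keep D) (fun p => dec ε (x (Sum.inl p)))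

end Vale.Agent.P330
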