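import Mathlib
import Vale.Agent.P330.PureDefs

/-!
Sets of gates and of violated gates.
-/

namespace Vale.Agent.P330

variable {N : Type}

/-- The nodes whose gate is violated by a three-valued assignment. -/
def PureCircuit.viol (C : PureCircuit N) (y : N → Tri) : Set N :=
  {v | ∃ k, C.gate v = some k ∧ ¬ k.Sat y v}

/-- The nodes whose gate is not `ε`-satisfied. -/
def GenCircuit.viol {V : Type} (G : GenCircuit V) (ε : ℚ) (x : V → ℚ) : Set V :=
  {v | ∃ k, G.gate v = some k ∧ ¬ k.Sat ε x v}

/-- The nodes that carry a gate. -/
def PureCircuit.gates (C : PureCircuit N) : Set N := {v | C.gate v ≠ none}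

/-- The nodes that carry a gate. -/
def GenCircuit.gates {V : Type} (G : GenCircuit V) : Set V := {v | G.gate v ≠ none}

end Vale.Agent.P330
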