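import Mathlib
import Vale.Agent.P330.Defs

/-!
A solver for generalized circuits for `1/6 ≤ ε < 1/4`.

Every node carries one of seven states.  The states are ordered (a forest order with least
element `mid`), every state has a rational value, and in each synchronous round every node recomputes
its state from the states of its inputs.  States only move upwards, so the iteration stabilises
after at most `3 |V|` rounds.
-/

namespace Vale.Agent.P330

/-- The seven states. -/
inductive St : Type
  | mid | lo | sp | lo2 | sq | tri | hi
  deriving DecidableEq

namespace St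

/-- The order on the states: `mid < lo < sp < lo2`, `sp < sq`, `mid < tri < hi`. -/
def le : St → St → Bool
  | .mid, _ => true
  | .lo, .lo => true
  | .lo, .sp => true
  | .lo, .lo2 => true
  | .lo, .sq => true
  | .sp, .sp => true
  | .sp, .lo2 => true
  | .sp, .sq => true
  | .lo2, .lo2 => true
  | .sq, .sq => true
  | .tri, .tri => true
  | .tri, .hi => true
  | .hi, .hi => true
  | _, _ => false

/-- A strictly monotone height function. -/
def rank : St → ℕ
  | .mid => 0
  | .lo => 1
  | .sp => 2
  | .lo2 => 3
  | .sq => 3
  | .tri => 1
  | .hi => 2

/-- The value of a state. -/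
def val (ε : ℚ) : St → ℚ
  | .mid => 2 * ε
  | .lo => ε
  | .sp => 1 / 2 - ε
  | .lo2 => ε
  | .sq => 1 - 3 * ε
  | .tri => 3 * ε
  | .hi => 1 - ε

/-- The states `mid, lo, sp, lo2` (their values are at most `2 ε`). -/
def low : St → Bool
  | .mid => true
  | .lo => true
  | .sp => true
  | .lo2 => true
  | _ => false

/-- The states above `lo`. -/
def eb : St → Bool
  | .lo => true
  | .sp => true
  | .lo2 => true
  | .sq => true
  | _ => false

end St

/-- New state of an addition gate. -/
def fAdd (a b : St) : St := if a.low && b.low then .tri else .hi

/-- New state of a subtraction gate. -/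
def fSub : St → St → St
  | .hi, .mid => .sp
  | .hi, .tri => .sp
  | .hi, .hi => .lo2
  | .hi, _ => .sq
  | _, _ => .lo

/-- New state of a negation gate. -/
def fNeg : St → St
  | .hi => .lo
  | .mid => .mid
  | .tri => .mid
  | _ => .hi

/-- New state of a disjunction gate. -/
def fDisj (a b : St) : St :=
  if a = .hi ∨ b = .hi then .hi else if a.eb && b.eb then .lo else .mid

/-- New state of a conjunction gate. -/
def fConj (a b : St) : St :=
  if a.eb || b.eb then .lo else if a = .hi ∧ b = .hi then .hi else .mid

/-- State of a constant gate. -/
def fConst (ε α : ℚ) : St := if α ≤ 2 * ε then .lo else if α ≤ 4 * ε then .tri else .hi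

/-- New state of a scaling gate. -/
def fScale (ε α : ℚ) (a : St) : St :=
  if 2 * α < 1 then
    match a with
    | .hi => if α * (1 - ε) ≤ 2 * ε then .lo else .sq
    | _ => .lo
  else
    match a with
    | .mid => .mid
    | .tri => .mid
    | .hi => if α * (1 - ε) ≤ 3 * ε then .mid else if α * (1 - ε) ≤ 4 * ε then .tri else .hi
    | .sq => if α * (1 - 3 * ε) ≤ 2 * ε then .lo else .sq
    | _ => .lo

/-- New state of a comparison gate: once it has left `mid` it never moves again. -/
def fLess (ε : ℚ) (own a b : St) : St :=
  if own = .mid then
    (if a.val ε < b.val ε - ε then .hi else if b.val ε + ε < a.val ε then .lo else .mid)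
  else own

/-- The local rule on states. -/
def stRule {V : Type} (ε : ℚ) (s : V → St) (v : V) : Option (GateKind V) → St
  | none => s v
  | some (.const α) => fConst ε α
  | some (.scale α a) => fScale ε α (s a)
  | some (.copy a) => s a
  | some (.add a b) => fAdd (s a) (s b)
  | some (.sub a b) => fSub (s a) (s b)
  | some (.less a b) => fLess ε (s v) (s a) (s b)
  | some (.neg a) => fNeg (s a)
  | some (.disj a b) => fDisj (s a) (s b)
  | some (.conj a b) => fConj (s a) (s b)

/-- One synchronous round on states. -/
def GenCircuit.stRound {V : Type} (G : GenCircuit V) (ε : ℚ) (s : V → St) : V → St :=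
  fun v => stRule ε s v (G.gate v)

/-- The states after `3 |V|` synchronous rounds, starting with the state `mid` everywhere. -/
def GenCircuit.stSolve {V : Type} [Fintype V] (G : GenCircuit V) (ε : ℚ) : V → St :=
  (G.stRound ε)^[3 * Fintype.card V] (fun _ => St.mid)

/-- The assignment read off from the final states. -/
def GenCircuit.solve6 {V : Type} [Fintype V] (G : GenCircuit V) (ε : ℚ) : V → ℚ :=
  fun v => (G.stSolve ε v).val ε

end Vale.Agent.P330
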