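import Mathlib
import Vale.Agent.P330.SixthDefs
import Vale.Agent.P330.AmpDefs2
import Vale.Agent.P330.RobustDefs

/-!
Acceptable assignments, in the wording of the problem file: values in `[0,1]` and at least
`(1 - δ) |T|` gates satisfied.
-/

namespace Vale.Agent.P330

/-- The nodes whose gate is `ε`-satisfied by `x`. -/
def GenCircuit.satSet {V : Type} (G : GenCircuit V) (ε : ℚ) (x : V → ℚ) : Set V :=
  {v | ∃ k, G.gate v = some k ∧ k.Sat ε x v}

/-- `x` has values in `[0,1]` and `ε`-satisfies at least `(1 - δ) |T|` of the gates of `G`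
(the other gates may be violated arbitrarily). -/
def GenCircuit.Acceptable {V : Type} (G : GenCircuit V) (ε δ : ℚ) (x : V → ℚ) : Prop :=
  (∀ v, 0 ≤ x v ∧ x v ≤ 1) ∧ (1 - δ) * (G.gates.ncard : ℚ) ≤ ((G.satSet ε x).ncard : ℚ)

/-- The nodes whose gate is satisfied by the three-valued assignment `y`. -/
def PureCircuit.satSet {N : Type} (C : PureCircuit N) (y : N → Tri) : Set N :=
  {v | ∃ k, C.gate v = some k ∧ k.Sat y v}

/-- `y` satisfies at least a `1 - δ` fraction of the gates of the Pure-Circuit instance `C`. -/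
def PureCircuit.Acceptable {N : Type} (C : PureCircuit N) (δ : ℚ) (y : N → Tri) : Prop :=
  (1 - δ) * (C.gates.ncard : ℚ) ≤ ((C.satSet y).ncard : ℚ)

/-- The explicit assignment for precision `ε ≥ 1/6`. -/
noncomputable def GenCircuit.easy {V : Type} [Fintype V] (G : GenCircuit V) (ε : ℚ) : V → ℚ :=
  if ε < 1 / 4 then G.solve6 ε else if ε < 1 / 2 then G.solve ε else fun _ => 1 / 2

theorem GenCircuit.ncard_sat_add_viol {V : Type} [Finite V] (G : GenCircuit V) (ε : ℚ)
    (x : V → ℚ) : (G.satSet ε x).ncard + (G.viol ε x).ncard = G.gates.ncard := by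
  rw [← Set.ncard_union_eq ?_ (Set.toFinite _) (Set.toFinite _)]
  · apply congrArg
    ext v
    simp only [GenCircuit.satSet, GenCircuit.viol, GenCircuit.gates, Set.mem_union,
      Set.mem_ofPred_eq]
    constructor
    · rintro (⟨k, hk, -⟩ | ⟨k, hk, -⟩) <;> simp [hk]
    · intro h
      obtain ⟨k, hk⟩ := Option.ne_none_iff_exists'.1 h
      by_cases hs : k.Sat ε x v
      · exact Or.inl ⟨k, hk, hs⟩
      · exact Or.inr ⟨k, hk, hs⟩
  · rw [Set.disjoint_left]
    rintro v ⟨k, hk, hs⟩ ⟨k', hk', hs'⟩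
    rw [hk] at hk'
    cases hk'
    exact hs' hs

theorem PureCircuit.ncard_sat_add_viol {N : Type} [Finite N] (C : PureCircuit N)
    (y : N → Tri) : (C.satSet y).ncard + (C.viol y).ncard = C.gates.ncard := by
  rw [← Set.ncard_union_eq ?_ (Set.toFinite _) (Set.toFinite _)]
  · apply congrArg
    ext v
    simp only [PureCircuit.satSet, PureCircuit.viol, PureCircuit.gates, Set.mem_union,
      Set.mem_ofPred_eq]
    constructor
    · rintro (⟨k, hk, -⟩ | ⟨k, hk, -⟩) <;> simp [hk]
    · intro h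
      obtain ⟨k, hk⟩ := Option.ne_none_iff_exists'.1 h
      by_cases hs : k.Sat y v
      · exact Or.inl ⟨k, hk, hs⟩
      · exact Or.inr ⟨k, hk, hs⟩
  · rw [Set.disjoint_left]
    rintro v ⟨k, hk, hs⟩ ⟨k', hk', hs'⟩
    rw [hk] at hk'
    cases hk'
    exact hs' hs

theorem GenCircuit.acceptable_iff {V : Type} [Finite V] (G : GenCircuit V) (ε δ : ℚ)
    (x : V → ℚ) : G.Acceptable ε δ x ↔ (∀ v, 0 ≤ x v ∧ x v ≤ 1) ∧
      ((G.viol ε x).ncard : ℚ) ≤ δ * (G.gates.ncard : ℚ) := by
  have h : ((G.satSet ε x).ncard : ℚ) + ((G.viol ε x).ncard : ℚ) = (G.gates.ncard : ℚ) := by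
    exact_mod_cast G.ncard_sat_add_viol ε x
  unfold GenCircuit.Acceptable
  constructor
  · rintro ⟨h1, h2⟩
    exact ⟨h1, by linarith⟩
  · rintro ⟨h1, h2⟩
    exact ⟨h1, by linarith⟩

theorem PureCircuit.acceptable_iff {N : Type} [Finite N] (C : PureCircuit N) (δ : ℚ)
    (y : N → Tri) : C.Acceptable δ y ↔
      ((C.viol y).ncard : ℚ) ≤ δ * (C.gates.ncard : ℚ) := by
  have h : ((C.satSet y).ncard : ℚ) + ((C.viol y).ncard : ℚ) = (C.gates.ncard : ℚ) := by
    exact_mod_cast C.ncard_sat_add_viol y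
  unfold PureCircuit.Acceptable
  constructor
  · intro h2
    linarith
  · intro h2
    linarith

end Vale.Agent.P330
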