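import Mathlib
import Vale.Agent.P330.PureDefs

/-!
Value-level lemmas for the gadgets that simulate a generalized circuit inside Pure-Circuit:
chains of PURIFY gates, counting of literals, threshold tables.
-/

namespace Vale.Agent.P330

/-- The constraint of a PURIFY gate on the values of its input and of its two outputs. -/
def PurV (u v w : Tri) : Prop :=
  (v ≠ Tri.bot ∨ w ≠ Tri.bot) ∧ (u = Tri.zero → v = Tri.zero) ∧ (u = Tri.one → v = Tri.one) ∧
    (u = Tri.zero → w = Tri.zero) ∧ (u = Tri.one → w = Tri.one)

/-- The constraint of a NOT gate on values. -/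
def NegV (a z : Tri) : Prop := (a = Tri.zero → z = Tri.one) ∧ (a = Tri.one → z = Tri.zero)

/-- The constraint of an OR gate on values. -/
def DisjV (a b z : Tri) : Prop :=
  ((a = Tri.one ∨ b = Tri.one) → z = Tri.one) ∧ ((a = Tri.zero ∧ b = Tri.zero) → z = Tri.zero)

/-- The constraint of an AND gate on values. -/
def ConjV (a b z : Tri) : Prop :=
  ((a = Tri.one ∧ b = Tri.one) → z = Tri.one) ∧ ((a = Tri.zero ∨ b = Tri.zero) → z = Tri.zero)

/-- Exchange of the two pure values. -/
def flipT : Tri → Tri
  | .zero => .one
  | .one => .zero
  | .bot => .bot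

theorem PurV.pure {u v w : Tri} (h : PurV u v w) (hu : u ≠ Tri.bot) : v = u ∧ w = u := by
  obtain ⟨_, h1, h2, h3, h4⟩ := h
  cases u with
  | zero => exact ⟨h1 rfl, h3 rfl⟩
  | one => exact ⟨h2 rfl, h4 rfl⟩
  | bot => exact absurd rfl hu

/-- The input of the `t`-th PURIFY gate of a chain. -/
def chainPrev (u : Tri) (cv : ℕ → Tri) (t : ℕ) : Tri := if t = 0 then u else cv (t - 1)

theorem chain_pure {ev cv : ℕ → Tri} {u : Tri} {len : ℕ}
    (h : ∀ t, t < len → PurV (chainPrev u cv t) (ev t) (cv t))
    {s : ℕ} (hs : chainPrev u cv s ≠ Tri.bot) :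
    ∀ t, s ≤ t → t < len → ev t = chainPrev u cv s ∧ cv t = chainPrev u cv s := by
  intro t hst
  induction t, hst using Nat.le_induction with
  | base => intro hl; exact (h s hl).pure hs
  | succ t hst ih =>
    intro hl
    have ih' := ih (by omega)
    have hp : chainPrev u cv (t + 1) = chainPrev u cv s := by
      have : chainPrev u cv (t + 1) = cv t := by
        simp [chainPrev]
      rw [this]; exact ih'.2
    have h2 := (h (t + 1) hl).pure (by rw [hp]; exact hs)
    rw [hp] at h2
    exact h2

theorem count_le_one_of_excl {p : ℕ → Prop} [DecidablePred p] {n : ℕ}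
    (h : ∀ s t, s < t → t < n → p s → ¬ p t) : Nat.count p n ≤ 1 := by
  induction n with
  | zero => simp
  | succ n ih =>
    rw [Nat.count_succ]
    have ih' := ih (fun s t hst ht => h s t hst (by omega))
    split_ifs with hp
    · have : Nat.count p n = 0 := by
        rw [Nat.count_iff_forall_not]
        intro s hs hps
        exact h s n hs (by omega) hps hp
      omega
    · omega

theorem count_le_add {p q r : ℕ → Prop} [DecidablePred p] [DecidablePred q] [DecidablePred r]
    {n : ℕ} (h : ∀ t, t < n → p t → q t ∨ r t) :
    Nat.count p n ≤ Nat.count q n + Nat.count r n := by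
  induction n with
  | zero => simp
  | succ n ih =>
    rw [Nat.count_succ, Nat.count_succ, Nat.count_succ]
    have ih' := ih (fun t ht => h t (by omega))
    have hn := h n (by omega)
    split_ifs with h1 h2 h3 h3 <;> first | omega | (exfalso; tauto)

theorem count_congr' {p q : ℕ → Prop} [DecidablePred p] [DecidablePred q] {n : ℕ}
    (h : ∀ t, t < n → (p t ↔ q t)) : Nat.count p n = Nat.count q n :=
  le_antisymm (Nat.count_mono_left (fun t ht => (h t ht).1))
    (Nat.count_mono_left (fun t ht => (h t ht).2))

theorem count_ge_of_forall {p : ℕ → Prop} [DecidablePred p] {a n : ℕ} (han : a ≤ n)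
    (h : ∀ t, t < a → p t) : a ≤ Nat.count p n := by
  have h1 : Nat.count p a = a := Nat.count_iff_forall.mpr h
  calc a = Nat.count p a := h1.symm
    _ ≤ Nat.count p n := Nat.count_monotone p han

theorem count_le_of_forall {p : ℕ → Prop} [DecidablePred p] {a n : ℕ}
    (h : ∀ t, a ≤ t → t < n → ¬ p t) : Nat.count p n ≤ a := by
  by_cases han : n ≤ a
  · exact le_trans (Nat.count_le _) han
  · obtain ⟨d, rfl⟩ : ∃ d, n = a + d := ⟨n - a, by omega⟩
    rw [Nat.count_add]
    have h2 : Nat.count (fun k => p (a + k)) d = 0 := by
      rw [Nat.count_iff_forall_not]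
      intro t ht
      exact h (a + t) (by omega) (by omega)
    have h3 : Nat.count p a ≤ a := Nat.count_le _
    omega

/-- The three kinds of values partition the indices. -/
theorem count_tri (f : ℕ → Tri) (n : ℕ) :
    Nat.count (fun t => f t = Tri.one) n + Nat.count (fun t => f t = Tri.bot) n
      + Nat.count (fun t => f t = Tri.zero) n = n := by
  induction n with
  | zero => simp
  | succ n ih =>
    rw [Nat.count_succ, Nat.count_succ, Nat.count_succ]
    cases hf : f n <;> simp <;> omega

theorem count_ne_zero_eq (f : ℕ → Tri) (n : ℕ) :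
    Nat.count (fun t => f t ≠ Tri.zero) n
      = Nat.count (fun t => f t = Tri.one) n + Nat.count (fun t => f t = Tri.bot) n := by
  induction n with
  | zero => simp
  | succ n ih =>
    rw [Nat.count_succ, Nat.count_succ, Nat.count_succ, ih]
    cases hf : f n <;> simp <;> omega

/-- Statistics of the copies produced by a chain. -/
theorem chain_stats {ev cv : ℕ → Tri} {u : Tri} {len : ℕ}
    (h : ∀ t, t < len → PurV (chainPrev u cv t) (ev t) (cv t)) :
    (u ≠ Tri.bot → ∀ t, t < len → ev t = u) ∧
    Nat.count (fun t => ev t = Tri.bot) len ≤ 1 := by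
  constructor
  · intro hu t ht
    have h0 : chainPrev u cv 0 = u := by simp [chainPrev]
    have := chain_pure h (s := 0) (by rw [h0]; exact hu) t (Nat.zero_le _) ht
    rw [h0] at this
    exact this.1
  · apply count_le_one_of_excl
    intro s t hst ht hs hbt
    have hs' : ev s = Tri.bot := hs
    have hc : cv s ≠ Tri.bot := by
      rcases (h s (by omega)).1 with h1 | h1
      · exact absurd hs' h1
      · exact h1
    have hp : chainPrev u cv (s + 1) = cv s := by simp [chainPrev]
    have := chain_pure h (s := s + 1) (by rw [hp]; exact hc) t (by omega) ht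
    rw [hp] at this
    exact hc (this.1 ▸ hbt)

/-- The literals made from one chain: the copies, or their negations. -/
theorem lit_stats {ev cv lv : ℕ → Tri} {u : Tri} {len : ℕ} (ng : Bool)
    (h : ∀ t, t < len → PurV (chainPrev u cv t) (ev t) (cv t))
    (hl : ∀ t, t < len → if ng = true then NegV (ev t) (lv t) else lv t = ev t) :
    len * (if (if ng = true then flipT u else u) = Tri.one then 1 else 0)
        ≤ Nat.count (fun t => lv t = Tri.one) len ∧
    Nat.count (fun t => lv t ≠ Tri.zero) len
        ≤ len * (if (if ng = true then flipT u else u) ≠ Tri.zero then 1 else 0) ∧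
    Nat.count (fun t => lv t ≠ Tri.zero) len ≤ Nat.count (fun t => lv t = Tri.one) len + 1 := by
  obtain ⟨hp, hb⟩ := chain_stats h
  refine ⟨?_, ?_, ?_⟩
  · split_ifs with h1 h2 h2
    · -- negated, u = zero
      have hu : u = Tri.zero := by cases u <;> simp_all [flipT]
      rw [mul_one]
      apply count_ge_of_forall le_rfl
      intro t ht
      have := hl t ht
      rw [if_pos h1] at this
      exact this.1 (by rw [hp (by rw [hu]; simp) t ht, hu])
    · simp
    · rw [mul_one]
      apply count_ge_of_forall le_rfl
      intro t ht
      have := hl t ht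
      rw [if_neg h1] at this
      rw [this, hp (by rw [h2]; simp) t ht, h2]
    · simp
  · split_ifs with h1 h2 h2
    · rw [mul_one]; exact Nat.count_le _
    · have hu : u = Tri.one := by cases u <;> simp_all [flipT]
      rw [mul_zero, Nat.le_zero, Nat.count_iff_forall_not]
      intro t ht hne
      have := hl t ht
      rw [if_pos h1] at this
      exact hne (this.2 (by rw [hp (by rw [hu]; simp) t ht, hu]))
    · rw [mul_one]; exact Nat.count_le _
    · have hu : u = Tri.zero := by
        by_contra hc; exact h2 hc
      rw [mul_zero, Nat.le_zero, Nat.count_iff_forall_not]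
      intro t ht hne
      have := hl t ht
      rw [if_neg h1] at this
      exact hne (by rw [this, hp (by rw [hu]; simp) t ht, hu])
  · have h3 : Nat.count (fun t => lv t ≠ Tri.zero) len
        ≤ Nat.count (fun t => lv t = Tri.one) len + Nat.count (fun t => ev t = Tri.bot) len := by
      apply count_le_add
      intro t ht hne
      have := hl t ht
      by_cases h1 : ng = true
      · rw [if_pos h1] at this
        cases he : ev t with
        | zero => left; exact this.1 he
        | one => exact absurd (this.2 he) hne
        | bot => right; rfl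
      · rw [if_neg h1] at this
        cases he : ev t with
        | zero => exact absurd (by rw [this, he]) hne
        | one => left; rw [this, he]
        | bot => right; rfl
    omega

/-- Summation of the statistics over `Q` consecutive chains of length `m`. -/
theorem blocks_stats {lv uq : ℕ → Tri} {m : ℕ} (Q : ℕ)
    (h : ∀ q, q < Q →
      m * (if uq q = Tri.one then 1 else 0) ≤ Nat.count (fun t => lv (q * m + t) = Tri.one) m ∧
      Nat.count (fun t => lv (q * m + t) ≠ Tri.zero) m
        ≤ m * (if uq q ≠ Tri.zero then 1 else 0) ∧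
      Nat.count (fun t => lv (q * m + t) ≠ Tri.zero) m
        ≤ Nat.count (fun t => lv (q * m + t) = Tri.one) m + 1) :
    m * Nat.count (fun q => uq q = Tri.one) Q ≤ Nat.count (fun t => lv t = Tri.one) (Q * m) ∧
    Nat.count (fun t => lv t ≠ Tri.zero) (Q * m) ≤ m * Nat.count (fun q => uq q ≠ Tri.zero) Q ∧
    Nat.count (fun t => lv t ≠ Tri.zero) (Q * m)
      ≤ Nat.count (fun t => lv t = Tri.one) (Q * m) + Q := by
  induction Q with
  | zero => simp
  | succ Q ih =>
    obtain ⟨i1, i2, i3⟩ := ih (fun q hq => h q (by omega))
    obtain ⟨j1, j2, j3⟩ := h Q (by omega)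
    have e : (Q + 1) * m = Q * m + m := by ring
    have c1 : Nat.count (fun t => lv t = Tri.one) ((Q + 1) * m)
        = Nat.count (fun t => lv t = Tri.one) (Q * m)
          + Nat.count (fun t => lv (Q * m + t) = Tri.one) m := by
      rw [e, Nat.count_add]
    have c2 : Nat.count (fun t => lv t ≠ Tri.zero) ((Q + 1) * m)
        = Nat.count (fun t => lv t ≠ Tri.zero) (Q * m)
          + Nat.count (fun t => lv (Q * m + t) ≠ Tri.zero) m := by
      rw [e, Nat.count_add]
    have c3 : m * Nat.count (fun q => uq q = Tri.one) (Q + 1)
        = m * Nat.count (fun q => uq q = Tri.one) Q + m * (if uq Q = Tri.one then 1 else 0) := by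
      rw [Nat.count_succ, mul_add]
    have c4 : m * Nat.count (fun q => uq q ≠ Tri.zero) (Q + 1)
        = m * Nat.count (fun q => uq q ≠ Tri.zero) Q
          + m * (if uq Q ≠ Tri.zero then 1 else 0) := by
      rw [Nat.count_succ, mul_add]
    rw [c1, c2, c3, c4]
    refine ⟨by omega, by omega, by omega⟩

/-- The threshold table. -/
theorem table_sound {tv : ℕ → ℕ → Tri} {av : ℕ → ℕ → Tri} {lv : ℕ → Tri} {n : ℕ}
    (h00 : ∀ i, tv i 0 = Tri.one)
    (h0 : ∀ j, tv 0 (j + 1) = Tri.zero)
    (hbig : ∀ i j, n < j → tv i j = Tri.zero)
    (hA : ∀ i j, i < n → j < n → ConjV (tv i j) (lv i) (av i j))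
    (hT : ∀ i j, i < n → j < n → DisjV (tv i (j + 1)) (av i j) (tv (i + 1) (j + 1))) :
    ∀ i, i ≤ n → ∀ j,
      (j ≤ Nat.count (fun t => lv t = Tri.one) i → tv i j = Tri.one) ∧
      (Nat.count (fun t => lv t ≠ Tri.zero) i < j → tv i j = Tri.zero) := by
  intro i
  induction i with
  | zero =>
    intro _ j
    cases j with
    | zero => exact ⟨fun _ => h00 0, fun h => by simp at h⟩
    | succ j => exact ⟨fun h => by simp at h, fun _ => h0 j⟩
  | succ i ih =>
    intro hi j
    have ih' := ih (by omega)
    cases j with
    | zero => exact ⟨fun _ => h00 _, fun h => by omega⟩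
    | succ j =>
      by_cases hj : j < n
      · have a := hA i j (by omega) hj
        have d := hT i j (by omega) hj
        rw [Nat.count_succ, Nat.count_succ]
        constructor
        · intro hc
          apply d.1
          by_cases h1 : j + 1 ≤ Nat.count (fun t => lv t = Tri.one) i
          · left; exact (ih' (j + 1)).1 h1
          · right
            have hl : lv i = Tri.one := by
              by_contra hne
              rw [if_neg hne] at hc
              omega
            rw [if_pos hl] at hc
            exact a.1 ⟨(ih' j).1 (by omega), hl⟩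
        · intro hc
          apply d.2
          refine ⟨(ih' (j + 1)).2 (by omega), ?_⟩
          apply a.2
          by_cases hl : lv i = Tri.zero
          · right; exact hl
          · left
            rw [if_pos hl] at hc
            exact (ih' j).2 (by omega)
      · constructor
        · intro hc
          have : Nat.count (fun t => lv t = Tri.one) (i + 1) ≤ i + 1 := Nat.count_le _
          omega
        · intro _
          exact hbig _ _ (by omega)

end Vale.Agent.P330
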