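import Mathlib
import Vale.Agent.P330.AmpAbs
import Vale.Agent.P330.AmpDefs

/-!
Semantics of one gadget all of whose gates are satisfied.
-/

namespace Vale.Agent.P330

variable {V : Type} {k : ℕ}

theorem cf_val {n i : ℕ} (h : i ≤ n) : (cf n i).val = i := by
  simp [cf, h]

theorem cf_self {n : ℕ} (i : Fin (n + 1)) : cf n i.val = i := by
  apply Fin.ext
  exact cf_val (by have := i.isLt; omega)

/-- All gates of the gadget of `z` are satisfied. -/
def GadOK (y : V × Gad k → Tri) (z : V) (d : Desc V) : Prop :=
  ∀ g kd, gadGate z d g = some kd → kd.Sat y (z, g)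

theorem gad_one {y : V × Gad k → Tri} {z : V} {d : Desc V} (h : GadOK y z d) :
    y (z, .one) = Tri.one := by
  have hp := h .p1 _ rfl
  have hn1 := h .n1 _ rfl
  have hn2 := h .n2 _ rfl
  have ho1 := h .o1 _ rfl
  have ho2 := h .o2 _ rfl
  have hone := h .one _ rfl
  simp only [PKind.Sat] at hp hn1 hn2 ho1 ho2 hone
  apply hone.1
  rcases hp.1 with h1 | h1
  · left
    apply ho1.1
    cases hv : y (z, Gad.p1) with
    | zero => right; exact hn1.1 hv
    | one => left; rfl
    | bot => exact absurd hv h1
  · right
    apply ho2.1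
    cases hv : y (z, Gad.p2) with
    | zero => right; exact hn2.1 hv
    | one => left; rfl
    | bot => exact absurd hv h1

theorem gad_zero {y : V × Gad k → Tri} {z : V} {d : Desc V} (h : GadOK y z d) :
    y (z, .zero) = Tri.zero := by
  have hz := h .zero _ rfl
  simp only [PKind.Sat] at hz
  exact hz.2 (gad_one h)

/-- The chain that copies the `i`-th bit of a source. -/
theorem gad_chain {y : V × Gad k → Tri} {z : V} {d : Desc V} (h : GadOK y z d) (b : Bool)
    (i : Fin (k + 1)) :
    ∀ t, t < 2 * k + 2 →
      PurV (chainPrev (y (srcNode z (if b = true then d.s2 else d.s1) i))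
          (fun t => y (z, .lc b i (cf _ t))) t)
        (y (z, .le b i (cf _ t))) (y (z, .lc b i (cf _ t))) := by
  intro t ht
  have h1 := h (.le b i (cf _ t)) _ rfl
  have h2 := h (.lc b i (cf _ t)) _ rfl
  simp only [PKind.Sat] at h1 h2
  have hv : (cf (2 * k + 1) t).val = t := cf_val (by omega)
  rw [hv] at h1 h2
  have hp : chainPrev (y (srcNode z (if b = true then d.s2 else d.s1) i))
      (fun t => y (z, .lc b i (cf _ t))) t
      = y (if t = 0 then srcNode z (if b = true then d.s2 else d.s1) i
          else (z, .lc b i (cf _ (t - 1)))) := by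
    unfold chainPrev
    split_ifs <;> rfl
  rw [hp]
  exact ⟨h1.1, h1.2.1, h1.2.2, h2.1, h2.2⟩

/-- The values of the literals. -/
def litV (y : V × Gad k → Tri) (z : V) (d : Desc V) (κ : ℕ) : Tri := y (z, litN k d κ)

/-- The bits of the two sources, the second one after the negation if there is one. -/
def srcV (y : V × Gad k → Tri) (z : V) (d : Desc V) (q : ℕ) : Tri :=
  if q < k + 1 then y (srcNode z d.s1 (cf k q))
  else if d.neg2 = true then flipT (y (srcNode z d.s2 (cf k (q - (k + 1)))))
  else y (srcNode z d.s2 (cf k (q - (k + 1))))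

theorem litN_block (d : Desc V) {q t : ℕ} (ht : t < 2 * k + 2) :
    litN k d (q * (2 * k + 2) + t) =
      if q < k + 1 then .le false (cf _ q) (cf _ t)
      else if d.neg2 = true then .ng (cf _ (q - (k + 1))) (cf _ t)
      else .le true (cf _ (q - (k + 1))) (cf _ t) := by
  have h1 : (q * (2 * k + 2) + t) / (2 * k + 2) = q := by
    rw [Nat.add_comm, Nat.add_mul_div_right _ _ (by omega), Nat.div_eq_of_lt ht, Nat.zero_add]
  have h2 : (q * (2 * k + 2) + t) % (2 * k + 2) = t := by
    rw [Nat.add_comm, Nat.add_mul_mod_self_right, Nat.mod_eq_of_lt ht]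
  unfold litN
  rw [h1, h2]

theorem gad_block {y : V × Gad k → Tri} {z : V} {d : Desc V} (h : GadOK y z d) (q : ℕ) :
    (2 * k + 2) * (if srcV y z d q = Tri.one then 1 else 0)
      ≤ Nat.count (fun t => litV y z d (q * (2 * k + 2) + t) = Tri.one) (2 * k + 2) ∧
    Nat.count (fun t => litV y z d (q * (2 * k + 2) + t) ≠ Tri.zero) (2 * k + 2)
      ≤ (2 * k + 2) * (if srcV y z d q ≠ Tri.zero then 1 else 0) ∧
    Nat.count (fun t => litV y z d (q * (2 * k + 2) + t) ≠ Tri.zero) (2 * k + 2)
      ≤ Nat.count (fun t => litV y z d (q * (2 * k + 2) + t) = Tri.one) (2 * k + 2) + 1 := by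
  by_cases hq : q < k + 1
  · have hs := lit_stats (lv := fun t => litV y z d (q * (2 * k + 2) + t)) false
      (gad_chain h false (cf k q)) (by
        intro t ht
        simp only [Bool.false_eq_true, if_false]
        show y (z, litN k d (q * (2 * k + 2) + t)) = _
        rw [litN_block d ht, if_pos hq])
    simp only [Bool.false_eq_true, if_false] at hs
    have hu : srcV y z d q = y (srcNode z d.s1 (cf k q)) := by
      unfold srcV; rw [if_pos hq]
    rw [hu]
    exact hs
  · have hs := lit_stats (lv := fun t => litV y z d (q * (2 * k + 2) + t)) d.neg2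
      (gad_chain h true (cf k (q - (k + 1)))) (by
        intro t ht
        show if d.neg2 = true then NegV _ (y (z, litN k d (q * (2 * k + 2) + t)))
          else y (z, litN k d (q * (2 * k + 2) + t)) = _
        rw [litN_block d ht, if_neg hq]
        split_ifs with hn
        · have := h (.ng (cf k (q - (k + 1))) (cf _ t)) _ rfl
          simp only [PKind.Sat] at this
          exact this
        · rfl)
    simp only [if_true] at hs
    have hu : srcV y z d q = if d.neg2 = true then flipT (y (srcNode z d.s2 (cf k (q - (k + 1)))))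
        else y (srcNode z d.s2 (cf k (q - (k + 1)))) := by
      unfold srcV; rw [if_neg hq]
    rw [hu]
    exact hs

/-- Number of literals that are one / that are not zero. -/
def litOnes (y : V × Gad k → Tri) (z : V) (d : Desc V) : ℕ :=
  Nat.count (fun t => litV y z d t = Tri.one) ((2 * k + 2) * (2 * k + 2))

def litNonz (y : V × Gad k → Tri) (z : V) (d : Desc V) : ℕ :=
  Nat.count (fun t => litV y z d t ≠ Tri.zero) ((2 * k + 2) * (2 * k + 2))

theorem gad_lits {y : V × Gad k → Tri} {z : V} {d : Desc V} (h : GadOK y z d) :
    (2 * k + 2) * Nat.count (fun q => srcV y z d q = Tri.one) (2 * k + 2) ≤ litOnes y z d ∧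
    litNonz y z d ≤ (2 * k + 2) * Nat.count (fun q => srcV y z d q ≠ Tri.zero) (2 * k + 2) ∧
    litNonz y z d ≤ litOnes y z d + (2 * k + 2) :=
  blocks_stats (lv := litV y z d) (uq := srcV y z d) (m := 2 * k + 2) (2 * k + 2)
    (fun q _ => gad_block h q)

/-- The table of thresholds of the gadget. -/
theorem gad_table {y : V × Gad k → Tri} {z : V} {d : Desc V} (h : GadOK y z d) (j : ℕ) :
    (j ≤ litOnes y z d → y (z, tn k ((2 * k + 2) * (2 * k + 2)) j) = Tri.one) ∧
    (litNonz y z d < j → y (z, tn k ((2 * k + 2) * (2 * k + 2)) j) = Tri.zero) := by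
  have key := table_sound (tv := fun i j => y (z, tn k i j))
    (av := fun i j => y (z, .A (cf _ i) (cf _ j))) (lv := litV y z d)
    (n := (2 * k + 2) * (2 * k + 2))
    (by intro i; simp only [tn, if_true]; exact gad_one h)
    (by
      intro j
      have : tn k 0 (j + 1) = Gad.zero := by simp [tn]
      simp only [this]; exact gad_zero h)
    (by
      intro i j hj
      have : tn k i j = Gad.zero := by
        unfold tn
        rw [if_neg (by omega)]
        split_ifs <;> rfl
      simp only [this]; exact gad_zero h)
    (by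
      intro i j hi hj
      have := h (.A (cf _ i) (cf _ j)) _ rfl
      simp only [PKind.Sat] at this
      rw [cf_val (by omega), cf_val (by omega)] at this
      exact this)
    (by
      intro i j hi hj
      have := h (.T (cf _ i) (cf _ j)) _ rfl
      simp only [PKind.Sat] at this
      rw [cf_val (by omega), cf_val (by omega)] at this
      have e : tn k (i + 1) (j + 1) = Gad.T (cf _ i) (cf _ j) := by
        unfold tn
        rw [if_neg (by omega), if_neg (by omega), if_neg (by omega)]
        simp
      simp only [e]
      exact this)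
  exact key _ le_rfl j

end Vale.Agent.P330
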