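import Mathlib
import Vale.Agent.P330.AmpGadget

/-!
The output bundle of a gadget all of whose gates are satisfied, and the statistics of its sources.
-/

namespace Vale.Agent.P330

variable {V : Type} {k : ℕ}

/-- The number of undefined bits in the bundle of `v`. -/
def bundleBots (y : V × Gad k → Tri) (v : V) : ℕ :=
  Nat.count (fun i => y (v, .out (cf k i)) = Tri.bot) (k + 1)

theorem out_arith {y : V × Gad k → Tri} {z : V} {d : Desc V} (h : GadOK y z d)
    (ha : d.arith = true) {i : ℕ} (hi : i < k + 1) :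
    (d.thr i ≤ litOnes y z d → y (z, .out (cf k i)) = Tri.one) ∧
    (litNonz y z d < d.thr i → y (z, .out (cf k i)) = Tri.zero) := by
  have hg : gadGate z d (.out (cf k i)) =
      some (.disj (z, tn k ((2 * k + 2) * (2 * k + 2)) (d.thr i))
          (z, tn k ((2 * k + 2) * (2 * k + 2)) (d.thr i))) := by
    simp only [gadGate, ha, if_true]
    rw [cf_val (by omega)]
  have := h _ _ hg
  simp only [PKind.Sat] at this
  have ht := gad_table h (d.thr i)
  exact ⟨fun hc => this.1 (Or.inl (ht.1 hc)), fun hc => this.2 ⟨ht.2 hc, ht.2 hc⟩⟩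

theorem arith_lower {y : V × Gad k → Tri} {z : V} {d : Desc V} (h : GadOK y z d)
    (ha : d.arith = true) {a : ℕ} (hak : a ≤ k + 1) (hthr : ∀ i, i < a → d.thr i ≤ litOnes y z d) :
    a ≤ bundleOnes y z :=
  count_ge_of_forall hak (fun i hi => (out_arith h ha (by omega)).1 (hthr i hi))

theorem arith_upper {y : V × Gad k → Tri} {z : V} {d : Desc V} (h : GadOK y z d)
    (ha : d.arith = true) {a : ℕ}
    (hthr : ∀ i, a ≤ i → i < k + 1 → litNonz y z d < d.thr i) :
    bundleOnes y z ≤ a :=
  count_le_of_forall (fun i hai hi => by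
    rw [(out_arith h ha hi).2 (hthr i hai hi)]
    simp)

/-- The thresholds are far apart. -/
def Desc.Spaced (k : ℕ) (d : Desc V) : Prop :=
  ∀ i j c, i < j → d.thr j ≤ c + (2 * k + 2) → d.thr i ≤ c

theorem bots_arith {y : V × Gad k → Tri} {z : V} {d : Desc V} (h : GadOK y z d)
    (ha : d.arith = true) (hs : d.Spaced k) : bundleBots y z ≤ 1 := by
  apply count_le_one_of_excl
  intro i j hij hj hi hjb
  have hi' : y (z, .out (cf k i)) = Tri.bot := hi
  have hjb' : y (z, .out (cf k j)) = Tri.bot := hjb
  have h1 : ¬ d.thr i ≤ litOnes y z d := by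
    intro hc
    rw [(out_arith h ha (by omega)).1 hc] at hi'
    simp at hi'
  have h2 : ¬ litNonz y z d < d.thr j := by
    intro hc
    rw [(out_arith h ha hj).2 hc] at hjb'
    simp at hjb'
  have h3 := (gad_lits h).2.2
  exact h1 (hs i j _ hij (by omega))

theorem out_chain {y : V × Gad k → Tri} {z : V} {d : Desc V} (h : GadOK y z d)
    (ha : d.arith = false) :
    ∀ t, t < k + 1 →
      PurV (chainPrev (y (z, tn k ((2 * k + 2) * (2 * k + 2)) (d.thr 0)))
          (fun t => y (z, .oc (cf _ t))) t)
        (y (z, .out (cf _ t))) (y (z, .oc (cf _ t))) := by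
  intro t ht
  have hg1 : gadGate z d (.out (cf k t)) =
      some (.purFst (if t = 0 then (z, tn k ((2 * k + 2) * (2 * k + 2)) (d.thr 0))
          else (z, .oc (cf _ (t - 1)))) (z, .oc (cf k t))) := by
    simp only [gadGate, ha, Bool.false_eq_true, if_false]
    rw [cf_val (by omega)]
  have hg2 : gadGate z d (.oc (cf k t)) =
      some (.purSnd (if t = 0 then (z, tn k ((2 * k + 2) * (2 * k + 2)) (d.thr 0))
          else (z, .oc (cf _ (t - 1)))) (z, .out (cf k t))) := by
    simp only [gadGate, ha, Bool.false_eq_true, if_false]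
    rw [cf_val (by omega)]
  have h1 := h _ _ hg1
  have h2 := h _ _ hg2
  simp only [PKind.Sat] at h1 h2
  have hp : chainPrev (y (z, tn k ((2 * k + 2) * (2 * k + 2)) (d.thr 0)))
      (fun t => y (z, .oc (cf _ t))) t
      = y (if t = 0 then (z, tn k ((2 * k + 2) * (2 * k + 2)) (d.thr 0))
          else (z, .oc (cf _ (t - 1)))) := by
    unfold chainPrev
    split_ifs <;> rfl
  rw [hp]
  exact ⟨h1.1, h1.2.1, h1.2.2, h2.1, h2.2⟩

theorem bots_bool {y : V × Gad k → Tri} {z : V} {d : Desc V} (h : GadOK y z d)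
    (ha : d.arith = false) : bundleBots y z ≤ 1 :=
  (chain_stats (out_chain h ha)).2

theorem bool_one {y : V × Gad k → Tri} {z : V} {d : Desc V} (h : GadOK y z d)
    (ha : d.arith = false) (hc : d.thr 0 ≤ litOnes y z d) : bundleOnes y z = k + 1 := by
  have hu := (gad_table h (d.thr 0)).1 hc
  apply Nat.count_iff_forall.mpr
  intro i hi
  rw [(chain_stats (out_chain h ha)).1 (by rw [hu]; simp) i hi, hu]

theorem bool_zero {y : V × Gad k → Tri} {z : V} {d : Desc V} (h : GadOK y z d)
    (ha : d.arith = false) (hc : litNonz y z d < d.thr 0) : bundleOnes y z = 0 := by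
  have hu := (gad_table h (d.thr 0)).2 hc
  apply Nat.count_iff_forall_not.mpr
  intro i hi
  rw [(chain_stats (out_chain h ha)).1 (by rw [hu]; simp) i hi, hu]
  simp

/-- Statistics of a source. -/
def sOnes (y : V × Gad k → Tri) (z : V) (s : Src V) : ℕ :=
  Nat.count (fun i => y (srcNode z s (cf k i)) = Tri.one) (k + 1)

def sBots (y : V × Gad k → Tri) (z : V) (s : Src V) : ℕ :=
  Nat.count (fun i => y (srcNode z s (cf k i)) = Tri.bot) (k + 1)

def sZeros (y : V × Gad k → Tri) (z : V) (s : Src V) : ℕ :=
  Nat.count (fun i => y (srcNode z s (cf k i)) = Tri.zero) (k + 1)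

theorem s_total (y : V × Gad k → Tri) (z : V) (s : Src V) :
    sOnes y z s + sBots y z s + sZeros y z s = k + 1 :=
  count_tri (fun i => y (srcNode z s (cf k i))) (k + 1)

theorem flipT_eq_one {u : Tri} : flipT u = Tri.one ↔ u = Tri.zero := by
  cases u <;> simp [flipT]

theorem flipT_ne_zero {u : Tri} : flipT u ≠ Tri.zero ↔ (u = Tri.zero ∨ u = Tri.bot) := by
  cases u <;> simp [flipT]

theorem count_or_zero_bot (f : ℕ → Tri) (n : ℕ) :
    Nat.count (fun t => f t = Tri.zero ∨ f t = Tri.bot) n
      = Nat.count (fun t => f t = Tri.zero) n + Nat.count (fun t => f t = Tri.bot) n := by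
  induction n with
  | zero => simp
  | succ n ih =>
    rw [Nat.count_succ, Nat.count_succ, Nat.count_succ, ih]
    cases hf : f n <;> simp <;> omega

/-- The counts of the literals in terms of the statistics of the sources. -/
theorem gad_counts {y : V × Gad k → Tri} {z : V} {d : Desc V} (h : GadOK y z d) :
    (d.neg2 = false →
      (2 * k + 2) * (sOnes y z d.s1 + sOnes y z d.s2) ≤ litOnes y z d ∧
      litNonz y z d
        ≤ (2 * k + 2) * (sOnes y z d.s1 + sBots y z d.s1 + (sOnes y z d.s2 + sBots y z d.s2))) ∧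
    (d.neg2 = true →
      (2 * k + 2) * (sOnes y z d.s1 + sZeros y z d.s2) ≤ litOnes y z d ∧
      litNonz y z d
        ≤ (2 * k + 2) * (sOnes y z d.s1 + sBots y z d.s1 + (sZeros y z d.s2 + sBots y z d.s2))) := by
  obtain ⟨h1, h2, _⟩ := gad_lits h
  have e : 2 * k + 2 = (k + 1) + (k + 1) := by ring
  have c1 : Nat.count (fun q => srcV y z d q = Tri.one) (2 * k + 2)
      = sOnes y z d.s1 + Nat.count (fun q => srcV y z d (k + 1 + q) = Tri.one) (k + 1) := by
    rw [e, Nat.count_add]
    congr 1
    apply count_congr'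
    intro t ht
    unfold srcV
    rw [if_pos ht]
  have c2 : Nat.count (fun q => srcV y z d q ≠ Tri.zero) (2 * k + 2)
      = (sOnes y z d.s1 + sBots y z d.s1)
        + Nat.count (fun q => srcV y z d (k + 1 + q) ≠ Tri.zero) (k + 1) := by
    rw [e, Nat.count_add]
    congr 1
    unfold sOnes sBots
    rw [← count_ne_zero_eq]
    apply count_congr'
    intro t ht
    unfold srcV
    rw [if_pos ht]
  rw [c1] at h1
  rw [c2] at h2
  constructor
  · intro hn
    have d1 : Nat.count (fun q => srcV y z d (k + 1 + q) = Tri.one) (k + 1) = sOnes y z d.s2 := by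
      apply count_congr'
      intro t _
      unfold srcV
      rw [if_neg (by omega), hn]
      simp
    have d2 : Nat.count (fun q => srcV y z d (k + 1 + q) ≠ Tri.zero) (k + 1)
        = sOnes y z d.s2 + sBots y z d.s2 := by
      unfold sOnes sBots
      rw [← count_ne_zero_eq]
      apply count_congr'
      intro t _
      unfold srcV
      rw [if_neg (by omega), hn]
      simp
    rw [d1] at h1
    rw [d2] at h2
    exact ⟨h1, h2⟩
  · intro hn
    have d1 : Nat.count (fun q => srcV y z d (k + 1 + q) = Tri.one) (k + 1) = sZeros y z d.s2 := by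
      apply count_congr'
      intro t _
      unfold srcV
      rw [if_neg (by omega), hn, if_pos rfl, flipT_eq_one]
      simp
    have d2 : Nat.count (fun q => srcV y z d (k + 1 + q) ≠ Tri.zero) (k + 1)
        = sZeros y z d.s2 + sBots y z d.s2 := by
      unfold sZeros sBots
      rw [← count_or_zero_bot]
      apply count_congr'
      intro t _
      unfold srcV
      rw [if_neg (by omega), hn, if_pos rfl, flipT_ne_zero]
      simp
    rw [d1] at h1
    rw [d2] at h2
    exact ⟨h1, h2⟩

theorem s_zero {y : V × Gad k → Tri} {z : V} {d : Desc V} (h : GadOK y z d) :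
    sOnes y z (Src.zero : Src V) = 0 ∧ sBots y z (Src.zero : Src V) = 0 ∧
      sZeros y z (Src.zero : Src V) = k + 1 := by
  have hz := gad_zero h
  refine ⟨?_, ?_, ?_⟩
  · apply Nat.count_iff_forall_not.mpr
    intro i _
    show ¬ y (z, Gad.zero) = Tri.one
    rw [hz]; simp
  · apply Nat.count_iff_forall_not.mpr
    intro i _
    show ¬ y (z, Gad.zero) = Tri.bot
    rw [hz]; simp
  · apply Nat.count_iff_forall.mpr
    intro i _
    exact hz

theorem s_one {y : V × Gad k → Tri} {z : V} {d : Desc V} (h : GadOK y z d) :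
    sOnes y z (Src.one : Src V) = k + 1 ∧ sBots y z (Src.one : Src V) = 0 ∧
      sZeros y z (Src.one : Src V) = 0 := by
  have hz := gad_one h
  refine ⟨?_, ?_, ?_⟩
  · apply Nat.count_iff_forall.mpr
    intro i _
    exact hz
  · apply Nat.count_iff_forall_not.mpr
    intro i _
    show ¬ y (z, Gad.one) = Tri.bot
    rw [hz]; simp
  · apply Nat.count_iff_forall_not.mpr
    intro i _
    show ¬ y (z, Gad.one) = Tri.zero
    rw [hz]; simp

end Vale.Agent.P330
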