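import Mathlib
import Vale.Agent.P330.AmpOut

/-!
Every kind of gate is simulated correctly by its gadget.
-/

namespace Vale.Agent.P330

variable {V : Type} {k : ℕ}

theorem thr_le {m X Y L : ℕ} (h1 : m * Y ≤ L) (h2 : X ≤ Y) : m * X ≤ L :=
  le_trans (Nat.mul_le_mul_left m h2) h1

theorem thr_gt {m X Y L : ℕ} (hm : 0 < m) (h1 : L ≤ m * Y) (h2 : Y < X) : L < m * X :=
  lt_of_le_of_lt h1 ((Nat.mul_lt_mul_left hm).mpr h2)

theorem low_nat {o : ℕ} {ε : ℚ} (h : (o : ℚ) / ((k : ℚ) + 1) ≤ ε) (h6 : ε < 1 / 6) :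
    6 * o < k + 1 := by
  have hK : (0 : ℚ) < (k : ℚ) + 1 := by positivity
  rw [div_le_iff₀ hK] at h
  have : (6 : ℚ) * o < (k : ℚ) + 1 := by nlinarith
  exact_mod_cast this

theorem high_nat {o : ℕ} {ε : ℚ} (h : 1 - ε ≤ (o : ℚ) / ((k : ℚ) + 1)) (h6 : ε < 1 / 6) :
    5 * (k + 1) < 6 * o := by
  have hK : (0 : ℚ) < (k : ℚ) + 1 := by positivity
  rw [le_div_iff₀ hK] at h
  have : (5 : ℚ) * ((k : ℚ) + 1) < 6 * o := by nlinarith
  exact_mod_cast this

theorem lt_nat {a b : ℕ} {ε : ℚ} (h : (a : ℚ) / ((k : ℚ) + 1) < (b : ℚ) / ((k : ℚ) + 1) - ε)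
    (hK2 : 2 ≤ ε * ((k : ℚ) + 1)) : a + 2 < b := by
  have hK : (0 : ℚ) < (k : ℚ) + 1 := by positivity
  have h1 : (a : ℚ) / ((k : ℚ) + 1) * ((k : ℚ) + 1) = a := div_mul_cancel₀ _ hK.ne'
  have h2 : (b : ℚ) / ((k : ℚ) + 1) * ((k : ℚ) + 1) = b := div_mul_cancel₀ _ hK.ne'
  have h3 : (a : ℚ) / ((k : ℚ) + 1) * ((k : ℚ) + 1)
      < ((b : ℚ) / ((k : ℚ) + 1) - ε) * ((k : ℚ) + 1) := mul_lt_mul_of_pos_right h hK
  rw [sub_mul, h1, h2] at h3
  have : (a : ℚ) + 2 < b := by linarith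
  exact_mod_cast this

theorem big_k {ε : ℚ} (h6 : ε < 1 / 6) (hK2 : 2 ≤ ε * ((k : ℚ) + 1)) : 12 ≤ k := by
  have hK : (0 : ℚ) < (k : ℚ) + 1 := by positivity
  have : (12 : ℚ) < (k : ℚ) + 1 := by nlinarith
  have h2 : 12 < k + 1 := by exact_mod_cast this
  omega

/-- two natural numbers at distance at most two give close fractions -/
theorem frac_close {O X : ℕ} {ε : ℚ} (hK2 : 2 ≤ ε * ((k : ℚ) + 1)) (h1 : X ≤ O + 2)
    (h2 : O ≤ X + 2) : |(O : ℚ) / ((k : ℚ) + 1) - (X : ℚ) / ((k : ℚ) + 1)| ≤ ε := by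
  have hK : (0 : ℚ) < (k : ℚ) + 1 := by positivity
  rw [← sub_div, abs_div, abs_of_pos hK, div_le_iff₀ hK, abs_le]
  have h1' : (X : ℚ) ≤ O + 2 := by exact_mod_cast h1
  have h2' : (O : ℚ) ≤ X + 2 := by exact_mod_cast h2
  constructor <;> linarith

/-- The statistics of the source attached to an input. -/
theorem src_stats {good : V → Bool} {y : V × Gad k → Tri} {z : V} {d : Desc V} (h : GadOK y z d)
    (a : V) (hb : good a = true → bundleBots y a ≤ 1) :
    readOff good y a = (sOnes y z (srcOf good a) : ℚ) / ((k : ℚ) + 1) ∧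
      sBots y z (srcOf good a) ≤ 1 := by
  by_cases hg : good a = true
  · have e : srcOf good a = Src.node a := by simp [srcOf, hg]
    rw [e]
    refine ⟨?_, hb hg⟩
    simp only [readOff, hg, if_true]
    rfl
  · have e : srcOf good a = Src.zero := by simp [srcOf, hg]
    rw [e]
    obtain ⟨h1, h2, _⟩ := s_zero h
    rw [h1, h2]
    simp [readOff, hg]

theorem readOff_good {good : V → Bool} {y : V × Gad k → Tri} {z : V} (hz : good z = true) :
    readOff good y z = (bundleOnes y z : ℚ) / ((k : ℚ) + 1) := by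
  simp [readOff, hz]

theorem bundleOnes_le (y : V × Gad k → Tri) (z : V) : bundleOnes y z ≤ k + 1 := Nat.count_le _

/-- Addition of two sources. -/
theorem sound_add {y : V × Gad k → Tri} {z : V} {s1 s2 : Src V}
    (h : GadOK y z ⟨s1, s2, false, true, fun i => (2 * k + 2) * (i + 1)⟩) :
    min (k + 1) (sOnes y z s1 + sOnes y z s2) ≤ bundleOnes y z ∧
    bundleOnes y z ≤ sOnes y z s1 + sBots y z s1 + (sOnes y z s2 + sBots y z s2) := by
  obtain ⟨c1, c2⟩ := (gad_counts h).1 rfl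
  simp only at c1 c2
  constructor
  · apply arith_lower h rfl (Nat.min_le_left _ _)
    intro i hi
    exact thr_le c1 (by have := Nat.min_le_right (k + 1) (sOnes y z s1 + sOnes y z s2); omega)
  · apply arith_upper h rfl
    intro i hi _
    exact thr_gt (by omega) c2 (by omega)

/-- Subtraction of two sources. -/
theorem sound_sub {y : V × Gad k → Tri} {z : V} {s1 s2 : Src V}
    (h : GadOK y z ⟨s1, s2, true, true, fun i => (2 * k + 2) * (k + 1 + (i + 1))⟩) :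
    sOnes y z s1 ≤ bundleOnes y z + (sOnes y z s2 + sBots y z s2) ∧
    bundleOnes y z ≤ sOnes y z s1 + sBots y z s1 - sOnes y z s2 := by
  obtain ⟨c1, c2⟩ := (gad_counts h).2 rfl
  have t1 := s_total y z s1
  have t2 := s_total y z s2
  simp only at c1 c2
  constructor
  · have : sOnes y z s1 + sZeros y z s2 - (k + 1) ≤ bundleOnes y z := by
      apply arith_lower h rfl (by omega)
      intro i hi
      exact thr_le c1 (by omega)
    omega
  · apply arith_upper h rfl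
    intro i hi _
    exact thr_gt (by omega) c2 (by omega)

/-- Multiplication of a source by a positive constant. -/
theorem sound_scale {y : V × Gad k → Tri} {z : V} {s1 : Src V} {α : ℚ} (h0 : 0 < α) (h1 : α ≤ 1)
    (h : GadOK y z ⟨s1, .zero, false, true,
      fun i => ⌈(((2 * k + 2) * (i + 1) : ℕ) : ℚ) / α⌉₊⟩) :
    α * (sOnes y z s1 : ℚ) - 1 ≤ (bundleOnes y z : ℚ) ∧
    (bundleOnes y z : ℚ) ≤ α * ((sOnes y z s1 : ℚ) + (sBots y z s1 : ℚ)) := by
  obtain ⟨c1, c2⟩ := (gad_counts h).1 rfl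
  obtain ⟨z1, z2, _⟩ := s_zero h
  simp only at c1 c2
  rw [z1] at c1
  rw [z1, z2] at c2
  have t1 := s_total y z s1
  set o := sOnes y z s1 with ho
  set b := sBots y z s1 with hb
  have hm : (0 : ℚ) < ((2 * k + 2 : ℕ) : ℚ) := by
    have : 0 < 2 * k + 2 := by omega
    exact_mod_cast this
  constructor
  · have hfl : ⌊α * (o : ℚ)⌋₊ ≤ bundleOnes y z := by
      apply arith_lower h rfl
      · have : ⌊α * (o : ℚ)⌋₊ ≤ o := by
          apply Nat.floor_le_of_le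
          have : (0 : ℚ) ≤ o := Nat.cast_nonneg _
          nlinarith
        omega
      · intro i hi
        refine le_trans ?_ c1
        show ⌈(((2 * k + 2) * (i + 1) : ℕ) : ℚ) / α⌉₊ ≤ (2 * k + 2) * (o + 0)
        rw [Nat.ceil_le, div_le_iff₀ h0]
        have h3 : ((i + 1 : ℕ) : ℚ) ≤ (⌊α * (o : ℚ)⌋₊ : ℚ) := by exact_mod_cast hi
        have h4 : (⌊α * (o : ℚ)⌋₊ : ℚ) ≤ α * o := Nat.floor_le (by positivity)
        push_cast at h3 ⊢
        push_cast at hm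
        nlinarith
    have h5 : α * (o : ℚ) < (⌊α * (o : ℚ)⌋₊ : ℚ) + 1 := Nat.lt_floor_add_one _
    have h6 : (⌊α * (o : ℚ)⌋₊ : ℚ) ≤ (bundleOnes y z : ℚ) := by exact_mod_cast hfl
    linarith
  · have hfl : bundleOnes y z ≤ ⌊α * ((o : ℚ) + (b : ℚ))⌋₊ := by
      apply arith_upper h rfl
      intro i hi _
      refine lt_of_le_of_lt c2 ?_
      show (2 * k + 2) * (o + b + (0 + 0)) < ⌈(((2 * k + 2) * (i + 1) : ℕ) : ℚ) / α⌉₊
      rw [Nat.lt_ceil, lt_div_iff₀ h0]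
      have h3 : α * ((o : ℚ) + (b : ℚ)) < (⌊α * ((o : ℚ) + (b : ℚ))⌋₊ : ℚ) + 1 :=
        Nat.lt_floor_add_one _
      have h4 : (⌊α * ((o : ℚ) + (b : ℚ))⌋₊ : ℚ) ≤ (i : ℚ) := by exact_mod_cast hi
      push_cast
      push_cast at hm
      nlinarith
    have h5 : (⌊α * ((o : ℚ) + (b : ℚ))⌋₊ : ℚ) ≤ α * ((o : ℚ) + (b : ℚ)) :=
      Nat.floor_le (by positivity)
    have h6 : (bundleOnes y z : ℚ) ≤ (⌊α * ((o : ℚ) + (b : ℚ))⌋₊ : ℚ) := by exact_mod_cast hfl
    linarith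

end Vale.Agent.P330
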