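import Mathlib
import Vale.Agent.P330.AmpGates

/-!
Local soundness of the simulation: a gate of the generalized circuit is satisfied by the assignment
read off as soon as its gadget and the gadgets of its inputs have no violated gate.
-/

namespace Vale.Agent.P330

variable {V : Type} {k : ℕ}

theorem frac_close_q {O : ℕ} {X ε : ℚ} (hK2 : 2 ≤ ε * ((k : ℚ) + 1)) (h1 : X - 2 ≤ O)
    (h2 : (O : ℚ) ≤ X + 2) : |(O : ℚ) / ((k : ℚ) + 1) - X / ((k : ℚ) + 1)| ≤ ε := by
  have hK : (0 : ℚ) < (k : ℚ) + 1 := by positivity
  rw [← sub_div, abs_div, abs_of_pos hK, div_le_iff₀ hK, abs_le]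
  constructor <;> linarith

theorem eps_pos {ε : ℚ} (hK2 : 2 ≤ ε * ((k : ℚ) + 1)) : 0 < ε := by
  have hK : (0 : ℚ) < (k : ℚ) + 1 := by positivity
  by_contra hc
  have : ε * ((k : ℚ) + 1) ≤ 0 := mul_nonpos_of_nonpos_of_nonneg (not_lt.mp hc) hK.le
  linarith

theorem full_frac : (((k + 1 : ℕ) : ℚ)) / ((k : ℚ) + 1) = 1 := by
  have hK : (0 : ℚ) < (k : ℚ) + 1 := by positivity
  push_cast
  exact div_self hK.ne'

theorem gate_sound {good : V → Bool} {y : V × Gad k → Tri} {z : V} (kd : GateKind V) {ε : ℚ}
    (h6 : ε < 1 / 6) (hK : 2 ≤ ε * ((k : ℚ) + 1))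
    (hc : ∀ α, kd = .const α → 0 ≤ α ∧ α ≤ 1) (hs : ∀ α a, kd = .scale α a → 0 ≤ α ∧ α ≤ 1)
    (h : GadOK y z (kd.desc k good)) (hz : good z = true)
    (hin : ∀ a, kd.Reads a → good a = true → bundleBots y a ≤ 1) :
    kd.Sat ε (readOff good y) z := by
  have hKpos : (0 : ℚ) < (k : ℚ) + 1 := by positivity
  have hε := eps_pos hK
  have hk12 := big_k h6 hK
  have hO := bundleOnes_le y z
  cases kd with
  | const α =>
    obtain ⟨a0, a1⟩ := hc α rfl
    simp only [GateKind.Sat]
    rw [readOff_good hz]
    by_cases hα : α = 0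
    · simp only [GateKind.desc, hα, if_true] at h
      obtain ⟨_, u⟩ := sound_add h
      obtain ⟨z1, z2, _⟩ := s_zero h
      rw [z1, z2] at u
      have : bundleOnes y z = 0 := by omega
      rw [this, hα]
      simp [hε.le]
    · simp only [GateKind.desc, hα, if_false] at h
      obtain ⟨l, u⟩ := sound_scale (lt_of_le_of_ne a0 (Ne.symm hα)) a1 h
      obtain ⟨o1, o2, _⟩ := s_one h
      rw [o1] at l
      rw [o1, o2] at u
      push_cast at l u
      have e : α = (α * ((k : ℚ) + 1)) / ((k : ℚ) + 1) := by
        rw [mul_div_assoc, div_self hKpos.ne', mul_one]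
      rw [e]
      apply frac_close_q hK <;> linarith
  | scale α a =>
    obtain ⟨a0, a1⟩ := hs α a rfl
    simp only [GateKind.Sat]
    rw [readOff_good hz]
    by_cases hα : α = 0
    · simp only [GateKind.desc, hα, if_true] at h
      obtain ⟨_, u⟩ := sound_add h
      obtain ⟨z1, z2, _⟩ := s_zero h
      rw [z1, z2] at u
      have : bundleOnes y z = 0 := by omega
      rw [this, hα]
      simp [hε.le]
    · simp only [GateKind.desc, hα, if_false] at h
      obtain ⟨l, u⟩ := sound_scale (lt_of_le_of_ne a0 (Ne.symm hα)) a1 h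
      obtain ⟨r, b⟩ := src_stats (good := good) h a (hin a rfl)
      rw [r, ← mul_div_assoc]
      have b' : (sBots y z (srcOf good a) : ℚ) ≤ 1 := by exact_mod_cast b
      have b0 : (0 : ℚ) ≤ (sBots y z (srcOf good a) : ℚ) := Nat.cast_nonneg _
      apply frac_close_q hK
      · linarith
      · nlinarith
  | copy a =>
    simp only [GateKind.Sat]
    rw [readOff_good hz]
    simp only [GateKind.desc] at h
    obtain ⟨l, u⟩ := sound_add h
    obtain ⟨z1, z2, _⟩ := s_zero h
    obtain ⟨r, b⟩ := src_stats (good := good) h a (hin a rfl)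
    have t := s_total y z (srcOf good a)
    rw [z1] at l
    rw [z1, z2] at u
    rw [r]
    apply frac_close hK <;> omega
  | add a b =>
    simp only [GateKind.Sat]
    rw [readOff_good hz]
    simp only [GateKind.desc] at h
    obtain ⟨l, u⟩ := sound_add h
    obtain ⟨r1, b1⟩ := src_stats (good := good) h a (hin a (Or.inl rfl))
    obtain ⟨r2, b2⟩ := src_stats (good := good) h b (hin b (Or.inr rfl))
    rw [r1, r2, ← add_div]
    by_cases hle : sOnes y z (srcOf good a) + sOnes y z (srcOf good b) ≤ k + 1
    · have hle' : ((sOnes y z (srcOf good a) : ℚ) + (sOnes y z (srcOf good b) : ℚ))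
          ≤ (k : ℚ) + 1 := by exact_mod_cast hle
      rw [min_eq_left ((div_le_one hKpos).mpr hle')]
      have e : ((sOnes y z (srcOf good a) : ℚ) + (sOnes y z (srcOf good b) : ℚ))
          = ((sOnes y z (srcOf good a) + sOnes y z (srcOf good b) : ℕ) : ℚ) := by push_cast; ring
      rw [e]
      apply frac_close hK <;> omega
    · have hle' : (k : ℚ) + 1 ≤ ((sOnes y z (srcOf good a) : ℚ) + (sOnes y z (srcOf good b) : ℚ)) := by
        have : k + 1 ≤ sOnes y z (srcOf good a) + sOnes y z (srcOf good b) := by omega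
        exact_mod_cast this
      rw [min_eq_right ((one_le_div hKpos).mpr hle')]
      have : bundleOnes y z = k + 1 := by omega
      rw [this, full_frac]
      simp [hε.le]
  | sub a b =>
    simp only [GateKind.Sat]
    rw [readOff_good hz]
    simp only [GateKind.desc] at h
    obtain ⟨l, u⟩ := sound_sub h
    obtain ⟨r1, b1⟩ := src_stats (good := good) h a (hin a (Or.inl rfl))
    obtain ⟨r2, b2⟩ := src_stats (good := good) h b (hin b (Or.inr rfl))
    rw [r1, r2, ← sub_div]
    by_cases hle : sOnes y z (srcOf good b) ≤ sOnes y z (srcOf good a)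
    · have hle' : (0 : ℚ) ≤ ((sOnes y z (srcOf good a) : ℚ) - (sOnes y z (srcOf good b) : ℚ)) := by
        have : (sOnes y z (srcOf good b) : ℚ) ≤ (sOnes y z (srcOf good a) : ℚ) := by
          exact_mod_cast hle
        linarith
      rw [max_eq_left (div_nonneg hle' hKpos.le)]
      have e : ((sOnes y z (srcOf good a) : ℚ) - (sOnes y z (srcOf good b) : ℚ))
          = ((sOnes y z (srcOf good a) - sOnes y z (srcOf good b) : ℕ) : ℚ) := by
        rw [Nat.cast_sub hle]
      rw [e]
      apply frac_close hK <;> omega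
    · have hle' : ((sOnes y z (srcOf good a) : ℚ) - (sOnes y z (srcOf good b) : ℚ)) ≤ 0 := by
        have : (sOnes y z (srcOf good a) : ℚ) ≤ (sOnes y z (srcOf good b) : ℚ) := by
          have : sOnes y z (srcOf good a) ≤ sOnes y z (srcOf good b) := by omega
          exact_mod_cast this
        linarith
      rw [max_eq_right (div_nonpos_of_nonpos_of_nonneg hle' hKpos.le)]
      have : bundleOnes y z = 0 := by omega
      rw [this]
      simp [hε.le]
  | less a b =>
    simp only [GateKind.Sat]
    rw [readOff_good hz]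
    simp only [GateKind.desc] at h
    obtain ⟨c1, c2⟩ := (gad_counts h).2 rfl
    simp only at c1 c2
    obtain ⟨r1, b1⟩ := src_stats (good := good) h a (hin a (Or.inl rfl))
    obtain ⟨r2, b2⟩ := src_stats (good := good) h b (hin b (Or.inr rfl))
    have t1 := s_total y z (srcOf good a)
    have t2 := s_total y z (srcOf good b)
    rw [r1, r2]
    constructor
    · intro hlt
      have := lt_nat hlt hK
      rw [bool_one h rfl (thr_le c1 (by omega)), full_frac]
      linarith
    · intro hlt
      have := lt_nat (a := sOnes y z (srcOf good b)) (b := sOnes y z (srcOf good a)) (ε := ε)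
        (by linarith) hK
      rw [bool_zero h rfl (thr_gt (by omega) c2 (by omega))]
      simp [hε.le]
  | neg a =>
    simp only [GateKind.Sat]
    rw [readOff_good hz]
    simp only [GateKind.desc] at h
    obtain ⟨c1, c2⟩ := (gad_counts h).2 rfl
    simp only at c1 c2
    obtain ⟨z1, z2, _⟩ := s_zero h
    rw [z1] at c1
    rw [z1, z2] at c2
    obtain ⟨r1, b1⟩ := src_stats (good := good) h a (hin a rfl)
    have t1 := s_total y z (srcOf good a)
    rw [r1]
    constructor
    · intro hlt
      have := low_nat hlt h6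
      rw [bool_one h rfl (thr_le c1 (by omega)), full_frac]
      linarith
    · intro hlt
      have := high_nat hlt h6
      rw [bool_zero h rfl (thr_gt (by omega) c2 (by omega))]
      simp [hε.le]
  | disj a b =>
    simp only [GateKind.Sat]
    rw [readOff_good hz]
    simp only [GateKind.desc] at h
    obtain ⟨c1, c2⟩ := (gad_counts h).1 rfl
    simp only at c1 c2
    obtain ⟨r1, b1⟩ := src_stats (good := good) h a (hin a (Or.inl rfl))
    obtain ⟨r2, b2⟩ := src_stats (good := good) h b (hin b (Or.inr rfl))
    have t1 := s_total y z (srcOf good a)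
    have t2 := s_total y z (srcOf good b)
    rw [r1, r2]
    constructor
    · intro hlt
      have hthr : (k + 2) / 2 ≤ sOnes y z (srcOf good a) + sOnes y z (srcOf good b) := by
        rcases hlt with hlt | hlt
        · have := high_nat hlt h6
          omega
        · have := high_nat hlt h6
          omega
      rw [bool_one h rfl (thr_le c1 hthr), full_frac]
      linarith
    · intro hlt
      have l1 := low_nat hlt.1 h6
      have l2 := low_nat hlt.2 h6
      rw [bool_zero h rfl (thr_gt (by omega) c2 (by omega))]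
      simp [hε.le]
  | conj a b =>
    simp only [GateKind.Sat]
    rw [readOff_good hz]
    simp only [GateKind.desc] at h
    obtain ⟨c1, c2⟩ := (gad_counts h).1 rfl
    simp only at c1 c2
    obtain ⟨r1, b1⟩ := src_stats (good := good) h a (hin a (Or.inl rfl))
    obtain ⟨r2, b2⟩ := src_stats (good := good) h b (hin b (Or.inr rfl))
    have t1 := s_total y z (srcOf good a)
    have t2 := s_total y z (srcOf good b)
    rw [r1, r2]
    constructor
    · intro hlt
      have l1 := high_nat hlt.1 h6
      have l2 := high_nat hlt.2 h6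
      rw [bool_one h rfl (thr_le c1 (by omega)), full_frac]
      linarith
    · intro hlt
      have hthr : sOnes y z (srcOf good a) + sBots y z (srcOf good a)
          + (sOnes y z (srcOf good b) + sBots y z (srcOf good b)) < k + 1 + (k + 2) / 2 := by
        rcases hlt with hlt | hlt
        · have := low_nat hlt h6
          omega
        · have := low_nat hlt h6
          omega
      rw [bool_zero h rfl (thr_gt (by omega) c2 hthr)]
      simp [hε.le]

theorem spaced_lin (e : ℕ) (i j c : ℕ) (hij : i < j)
    (h : (2 * k + 2) * (e + (j + 1)) ≤ c + (2 * k + 2)) : (2 * k + 2) * (e + (i + 1)) ≤ c := by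
  have h1 : (2 * k + 2) * (e + (i + 1)) ≤ (2 * k + 2) * (e + j) :=
    Nat.mul_le_mul_left _ (by omega)
  have h2 : (2 * k + 2) * (e + (j + 1)) = (2 * k + 2) * (e + j) + (2 * k + 2) := by ring
  omega

theorem spaced_lin0 (i j c : ℕ) (hij : i < j)
    (h : (2 * k + 2) * (j + 1) ≤ c + (2 * k + 2)) : (2 * k + 2) * (i + 1) ≤ c := by
  have := spaced_lin (k := k) 0 i j c hij (by simpa using h)
  simpa using this

theorem spaced_ceil {α : ℚ} (h0 : 0 < α) (h1 : α ≤ 1) (i j c : ℕ) (hij : i < j)
    (h : ⌈(((2 * k + 2) * (j + 1) : ℕ) : ℚ) / α⌉₊ ≤ c + (2 * k + 2)) :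
    ⌈(((2 * k + 2) * (i + 1) : ℕ) : ℚ) / α⌉₊ ≤ c := by
  rw [Nat.ceil_le, div_le_iff₀ h0] at h ⊢
  have hij' : ((i : ℚ) + 1) ≤ (j : ℚ) := by exact_mod_cast hij
  have hk : (0 : ℚ) ≤ (k : ℚ) := Nat.cast_nonneg _
  have hc : (0 : ℚ) ≤ (c : ℚ) := Nat.cast_nonneg _
  push_cast at h ⊢
  nlinarith

theorem desc_spaced {good : V → Bool} (kd : GateKind V)
    (hc : ∀ α, kd = .const α → 0 ≤ α ∧ α ≤ 1) (hs : ∀ α a, kd = .scale α a → 0 ≤ α ∧ α ≤ 1)
    (ha : (kd.desc k good).arith = true) : (kd.desc k good).Spaced k := by
  cases kd with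
  | const α =>
    obtain ⟨a0, a1⟩ := hc α rfl
    by_cases hα : α = 0
    · simp only [GateKind.desc, hα, if_true]
      exact fun i j c hij h => spaced_lin0 i j c hij h
    · simp only [GateKind.desc, hα, if_false]
      exact fun i j c hij h => spaced_ceil (lt_of_le_of_ne a0 (Ne.symm hα)) a1 i j c hij h
  | scale α a =>
    obtain ⟨a0, a1⟩ := hs α a rfl
    by_cases hα : α = 0
    · simp only [GateKind.desc, hα, if_true]
      exact fun i j c hij h => spaced_lin0 i j c hij h
    · simp only [GateKind.desc, hα, if_false]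
      exact fun i j c hij h => spaced_ceil (lt_of_le_of_ne a0 (Ne.symm hα)) a1 i j c hij h
  | copy a => exact fun i j c hij h => spaced_lin0 i j c hij h
  | add a b => exact fun i j c hij h => spaced_lin0 i j c hij h
  | sub a b => exact fun i j c hij h => spaced_lin (k + 1) i j c hij h
  | less a b => simp [GateKind.desc] at ha
  | neg a => simp [GateKind.desc] at ha
  | disj a b => simp [GateKind.desc] at ha
  | conj a b => simp [GateKind.desc] at ha

/-- The bundle of a gadget without violated gate has at most one undefined bit. -/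
theorem bundle_clean {good : V → Bool} {y : V × Gad k → Tri} {z : V} (kd : GateKind V)
    (hc : ∀ α, kd = .const α → 0 ≤ α ∧ α ≤ 1) (hs : ∀ α a, kd = .scale α a → 0 ≤ α ∧ α ≤ 1)
    (h : GadOK y z (kd.desc k good)) : bundleBots y z ≤ 1 := by
  by_cases ha : (kd.desc k good).arith = true
  · exact bots_arith h ha (desc_spaced kd hc hs ha)
  · exact bots_bool h (by simpa using ha)

end Vale.Agent.P330
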