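import Mathlib
import Vale.Agent.P330.AmpSound
import Vale.Agent.P330.AmpPure

/-!
The local decoding theorem.
-/

namespace Vale.Agent.P330

variable {V : Type} {k : ℕ}

/-- Local decoding: the gate of `G` at a kept node `z` is satisfied with precision `ε` by the
assignment read off, as soon as no gate of the gadget of `z` and of the gadgets of its kept inputs
is violated. -/
theorem decode_gate (G : GenCircuit V) (good : V → Bool)
    (hgood : ∀ v, good v = true → G.gate v ≠ none) (y : V × Gad k → Tri) {ε : ℚ}
    (h6 : ε < 1 / 6) (hK : 2 ≤ ε * ((k : ℚ) + 1)) (z : V) (kd : GateKind V)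
    (hg : G.gate z = some kd) (hz : good z = true)
    (hOK : ∀ a, (a = z ∨ (kd.Reads a ∧ good a = true)) →
      ∀ g kd', (G.toPure k good).gate (a, g) = some kd' → kd'.Sat y (a, g)) :
    kd.Sat ε (readOff good y) z := by
  have hgad : ∀ a ka, G.gate a = some ka → (a = z ∨ (kd.Reads a ∧ good a = true)) →
      GadOK y a (ka.desc k good) := by
    intro a ka ha hcase g kd' hgg
    apply hOK a hcase g kd'
    show G.pureGate k good (a, g) = some kd'
    rw [pureGate_some G good ha]
    exact hgg
  apply gate_sound kd h6 hK (fun α e => G.const_param z α (by rw [hg, e]))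
    (fun α a e => G.scale_param z α a (by rw [hg, e])) (hgad z kd hg (Or.inl rfl)) hz
  intro a hr hga
  rcases ha : G.gate a with _ | ka
  · exact absurd ha (hgood a hga)
  · exact bundle_clean ka (fun α e => G.const_param a α (by rw [ha, e]))
      (fun α b e => G.scale_param a α b (by rw [ha, e])) (hgad a ka ha (Or.inr ⟨hr, hga⟩))

end Vale.Agent.P330
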