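import Mathlib
import Vale.Agent.P330.PureDefs

/-!
The arithmetic of the PURIFY gadget, valid for every `ε < 1/6`.

One block has inputs `a`, `c` and nodes `e = Sub(a,c)`, `x = Sub(one,e)`, `h = Less(x,a)`,
`g = Less(c,e)`, `out = And(h,g)`.  If `a ≤ c` then `out ≤ ε`; if `a ≥ 1 - ε` and `c ≤ ε` then
`out ≥ 1 - ε`.
-/

namespace Vale.Agent.P330

theorem block_zero {ε a c one e x h g out : ℚ} (h6 : ε < 1 / 6)
    (hone : |one - 1| ≤ ε) (he : |e - max (a - c) 0| ≤ ε) (hx : |x - max (one - e) 0| ≤ ε)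
    (hh : (x < a - ε → 1 - ε ≤ h) ∧ (a + ε < x → h ≤ ε))
    (hg : (c < e - ε → 1 - ε ≤ g) ∧ (e + ε < c → g ≤ ε))
    (hout : ((1 - ε ≤ h ∧ 1 - ε ≤ g) → 1 - ε ≤ out) ∧ ((h ≤ ε ∨ g ≤ ε) → out ≤ ε))
    (hac : a ≤ c) : out ≤ ε := by
  have hm : max (a - c) 0 = 0 := max_eq_right (by linarith)
  rw [hm] at he
  have he' := abs_le.mp he
  have hone' := abs_le.mp hone
  have hx' := abs_le.mp hx
  have hmx : one - e ≤ max (one - e) 0 := le_max_left _ _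
  -- `x ≥ 1 - 3 ε`
  have hx3 : 1 - 3 * ε ≤ x := by linarith [he'.2, hone'.1, hx'.1]
  by_cases hcase : a < 1 - 4 * ε
  · exact hout.2 (Or.inl (hh.2 (by linarith)))
  · have ha : 1 - 4 * ε ≤ a := not_lt.mp hcase
    exact hout.2 (Or.inr (hg.2 (by linarith [he'.2])))

theorem block_one {ε a c one e x h g out : ℚ} (h6 : ε < 1 / 6)
    (hone1 : one ≤ 1) (he : |e - max (a - c) 0| ≤ ε) (hx : |x - max (one - e) 0| ≤ ε)
    (hh : (x < a - ε → 1 - ε ≤ h) ∧ (a + ε < x → h ≤ ε))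
    (hg : (c < e - ε → 1 - ε ≤ g) ∧ (e + ε < c → g ≤ ε))
    (hout : ((1 - ε ≤ h ∧ 1 - ε ≤ g) → 1 - ε ≤ out) ∧ ((h ≤ ε ∨ g ≤ ε) → out ≤ ε))
    (ha : 1 - ε ≤ a) (hc : c ≤ ε) : 1 - ε ≤ out := by
  have he' := abs_le.mp he
  have hx' := abs_le.mp hx
  have hm : a - c ≤ max (a - c) 0 := le_max_left _ _
  -- `e ≥ 1 - 3 ε`
  have he3 : 1 - 3 * ε ≤ e := by linarith [he'.1]
  have hε : 0 ≤ ε := le_trans (abs_nonneg _) he
  have hmx : max (one - e) 0 ≤ 3 * ε := max_le (by linarith) (by linarith)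
  have hx4 : x ≤ 4 * ε := by linarith [hx'.2]
  exact hout.1 ⟨hh.1 (by linarith), hg.1 (by linarith)⟩

theorem dec_eq_zero {ε t : ℚ} : dec ε t = Tri.zero ↔ t ≤ ε := by
  unfold dec
  constructor
  · intro h
    by_contra hc
    rw [if_neg hc] at h
    split_ifs at h
  · intro h
    rw [if_pos h]

theorem dec_eq_one {ε t : ℚ} (h2 : ε < 1 / 2) : dec ε t = Tri.one ↔ 1 - ε ≤ t := by
  unfold dec
  constructor
  · intro h
    by_contra hc
    split_ifs at h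
  · intro h
    rw [if_neg (by intro h'; linarith), if_pos h]

theorem dec_ne_bot_of_le {ε t : ℚ} (h : t ≤ ε) : dec ε t ≠ Tri.bot := by
  rw [dec_eq_zero.mpr h]
  decide

theorem dec_ne_bot_of_ge {ε t : ℚ} (h2 : ε < 1 / 2) (h : 1 - ε ≤ t) : dec ε t ≠ Tri.bot := by
  rw [(dec_eq_one h2).mpr h]
  decide

end Vale.Agent.P330
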