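import Mathlib
import Vale.Agent.P330.PurifyGadget
import Vale.Agent.P330.ToGen

/-!
From Pure-Circuit to generalized circuits, for every `ε < 1/6`: the decoding theorem.
-/

namespace Vale.Agent.P330

variable {N : Type}

/-- Every assignment that `ε`-satisfies all gates of `C.toGen`, `0 < ε < 1/6`, is turned into a
solution of `C` by rounding. -/
theorem decode_isSolution (C : PureCircuit N) {ε : ℚ} (h6 : ε < 1 / 6)
    (x : N ⊕ (N × Aux) → ℚ) (hx : ∀ v, 0 ≤ x v ∧ x v ≤ 1)
    (hsat : ∀ v k, C.toGen.gate v = some k → k.Sat ε x v) :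
    C.IsSolution (fun v => dec ε (x (Sum.inl v))) := by
  have h2 : ε < 1 / 2 := by linarith
  -- the two blocks of a PURIFY gate
  have hpur : ∀ v u w, C.gate v = some (PKind.purFst u w) →
      (x (Sum.inl u) ≤ x (Sum.inr (v, Aux.nn)) → x (Sum.inl v) ≤ ε) ∧
      (1 - ε ≤ x (Sum.inl u) → 1 - ε ≤ x (Sum.inl v)) ∧
      (x (Sum.inr (v, Aux.nn)) ≤ x (Sum.inl u) → 1 - ε ≤ x (Sum.inl w)) ∧
      (x (Sum.inl u) ≤ ε → x (Sum.inl w) ≤ ε) ∧
      (x (Sum.inl u) ≤ ε → 1 - ε ≤ x (Sum.inr (v, Aux.nn))) ∧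
      (1 - ε ≤ x (Sum.inl u) → x (Sum.inr (v, Aux.nn)) ≤ ε) := by
    intro v u w hg
    have hw := C.pair_fst v u w hg
    have aux : ∀ t k, purAux u v t = some k → k.Sat ε x (Sum.inr (v, t)) := by
      intro t k ht
      apply hsat
      show C.genGate (Sum.inr (v, t)) = some k
      simp only [PureCircuit.genGate, hg]
      exact ht
    have snn := aux Aux.nn _ rfl
    have sone := aux Aux.one _ rfl
    have se1 := aux Aux.e1 _ rfl
    have sx1 := aux Aux.x1 _ rfl
    have sh1 := aux Aux.h1 _ rfl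
    have sg1 := aux Aux.g1 _ rfl
    have se2 := aux Aux.e2 _ rfl
    have sx2 := aux Aux.x2 _ rfl
    have sh2 := aux Aux.h2 _ rfl
    have sg2 := aux Aux.g2 _ rfl
    have sw2 := aux Aux.w2 _ rfl
    have sv : (GateKind.conj (Sum.inr (v, Aux.h1)) (Sum.inr (v, Aux.g1))).Sat ε x (Sum.inl v) := by
      apply hsat
      show C.genGate (Sum.inl v) = _
      simp only [PureCircuit.genGate, hg]
    have sw : (GateKind.neg (Sum.inr (v, Aux.w2))).Sat ε x (Sum.inl w) := by
      apply hsat
      show C.genGate (Sum.inl w) = _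
      simp only [PureCircuit.genGate, hw]
    simp only [GateKind.Sat] at snn sone se1 sx1 sh1 sg1 se2 sx2 sh2 sg2 sw2 sv sw
    have hone1 := (hx (Sum.inr (v, Aux.one))).2
    refine ⟨fun h => block_zero h6 sone se1 sx1 sh1 sg1 sv h,
      fun h => block_one h6 hone1 se1 sx1 sh1 sg1 sv h (snn.2 h),
      fun h => sw.1 (block_zero h6 sone se2 sx2 sh2 sg2 sw2 h),
      fun h => sw.2 (block_one h6 hone1 se2 sx2 sh2 sg2 sw2 (snn.1 h) h),
      snn.1, snn.2⟩
  intro v k hg
  cases k with
  | neg u =>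
    have s : (GateKind.neg (Sum.inl u)).Sat ε x (Sum.inl v) := by
      apply hsat
      show C.genGate (Sum.inl v) = _
      simp only [PureCircuit.genGate, hg]
    simp only [GateKind.Sat] at s
    simp only [PKind.Sat, dec_eq_zero, dec_eq_one h2]
    exact s
  | disj u w =>
    have s : (GateKind.disj (Sum.inl u) (Sum.inl w)).Sat ε x (Sum.inl v) := by
      apply hsat
      show C.genGate (Sum.inl v) = _
      simp only [PureCircuit.genGate, hg]
    simp only [GateKind.Sat] at s
    simp only [PKind.Sat, dec_eq_zero, dec_eq_one h2]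
    exact s
  | conj u w =>
    have s : (GateKind.conj (Sum.inl u) (Sum.inl w)).Sat ε x (Sum.inl v) := by
      apply hsat
      show C.genGate (Sum.inl v) = _
      simp only [PureCircuit.genGate, hg]
    simp only [GateKind.Sat] at s
    simp only [PKind.Sat, dec_eq_zero, dec_eq_one h2]
    exact s
  | nor u w =>
    have s : (GateKind.neg (Sum.inr (v, Aux.orr))).Sat ε x (Sum.inl v) := by
      apply hsat
      show C.genGate (Sum.inl v) = _
      simp only [PureCircuit.genGate, hg]
    have s' : (GateKind.disj (Sum.inl u) (Sum.inl w)).Sat ε x (Sum.inr (v, Aux.orr)) := by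
      apply hsat
      show C.genGate (Sum.inr (v, Aux.orr)) = _
      simp only [PureCircuit.genGate, hg, norAux]
    simp only [GateKind.Sat] at s s'
    simp only [PKind.Sat, dec_eq_zero, dec_eq_one h2]
    exact ⟨fun h => s.1 (s'.2 h), fun h => s.2 (s'.1 h)⟩
  | purFst u w =>
    obtain ⟨p1, p2, p3, p4, p5, p6⟩ := hpur v u w hg
    simp only [PKind.Sat, dec_eq_zero, dec_eq_one h2]
    refine ⟨?_, fun h => p1 (by linarith [p5 h]), p2⟩
    rcases le_total (x (Sum.inl u)) (x (Sum.inr (v, Aux.nn))) with h | h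
    · left; exact dec_ne_bot_of_le (p1 h)
    · right; exact dec_ne_bot_of_ge h2 (p3 h)
  | purSnd u w =>
    have hg' := C.pair_snd v u w hg
    obtain ⟨p1, p2, p3, p4, p5, p6⟩ := hpur w u v hg'
    simp only [PKind.Sat, dec_eq_zero, dec_eq_one h2]
    exact ⟨p4, fun h => p3 (by linarith [p6 h])⟩

end Vale.Agent.P330
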