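import Mathlib
import Vale.Agent.P330.Reduction
import Vale.Agent.P330.RobustDefs

/-!
The map from Pure-Circuit to generalized circuits preserves gaps: few violated gates of `C.toGen`
give few violated gates of `C`.
-/

namespace Vale.Agent.P330

variable {N : Type}

/-- The other output of the PURIFY gate of a node (the node itself for the other gates). -/
def PureCircuit.partner (C : PureCircuit N) (v : N) : N :=
  match C.gate v with
  | some (.purFst _ w) => w
  | some (.purSnd _ w) => w
  | _ => v

/-- The node of `C` to which a node of `C.toGen` belongs. -/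
def owner : N ⊕ (N × Aux) → N
  | .inl v => v
  | .inr (v, _) => v

theorem partner_partner (C : PureCircuit N) (v : N) : C.partner (C.partner v) = v := by
  rcases hg : C.gate v with _ | k
  · simp only [PureCircuit.partner, hg]
  · cases k with
    | neg u => simp only [PureCircuit.partner, hg]
    | disj u w => simp only [PureCircuit.partner, hg]
    | conj u w => simp only [PureCircuit.partner, hg]
    | nor u w => simp only [PureCircuit.partner, hg]
    | purFst u w =>
      have hw := C.pair_fst v u w hg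
      have h1 : C.partner v = w := by simp only [PureCircuit.partner, hg]
      rw [h1]
      simp only [PureCircuit.partner, hw]
    | purSnd u w =>
      have hw := C.pair_snd v u w hg
      have h1 : C.partner v = w := by simp only [PureCircuit.partner, hg]
      rw [h1]
      simp only [PureCircuit.partner, hw]

/-- Local form of the decoding theorem: the gate of `C` at `v` is satisfied by the rounded
assignment as soon as the gates of `C.toGen` that belong to `v` or to its partner are satisfied. -/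
theorem decode_local (C : PureCircuit N) {ε : ℚ} (h6 : ε < 1 / 6)
    (x : N ⊕ (N × Aux) → ℚ) (hx : ∀ p, 0 ≤ x p ∧ x p ≤ 1) (v : N) (k : PKind N)
    (hg : C.gate v = some k)
    (hsat : ∀ p k', (owner p = v ∨ owner p = C.partner v) → C.toGen.gate p = some k' →
      k'.Sat ε x p) :
    k.Sat (fun v => dec ε (x (Sum.inl v))) v := by
  have h2 : ε < 1 / 2 := by linarith
  -- the two blocks of a PURIFY gate
  have hpur : ∀ v' u w, C.gate v' = some (PKind.purFst u w) →
      (∀ p k', (owner p = v' ∨ owner p = w) → C.toGen.gate p = some k' → k'.Sat ε x p) →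
      (x (Sum.inl u) ≤ x (Sum.inr (v', Aux.nn)) → x (Sum.inl v') ≤ ε) ∧
      (1 - ε ≤ x (Sum.inl u) → 1 - ε ≤ x (Sum.inl v')) ∧
      (x (Sum.inr (v', Aux.nn)) ≤ x (Sum.inl u) → 1 - ε ≤ x (Sum.inl w)) ∧
      (x (Sum.inl u) ≤ ε → x (Sum.inl w) ≤ ε) ∧
      (x (Sum.inl u) ≤ ε → 1 - ε ≤ x (Sum.inr (v', Aux.nn))) ∧
      (1 - ε ≤ x (Sum.inl u) → x (Sum.inr (v', Aux.nn)) ≤ ε) := by
    intro v u w hg hsat
    have hw := C.pair_fst v u w hg
    have aux : ∀ t k, purAux u v t = some k → k.Sat ε x (Sum.inr (v, t)) := by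
      intro t k ht
      apply hsat _ _ (Or.inl rfl)
      show C.genGate (Sum.inr (v, t)) = some k
      simp only [PureCircuit.genGate, hg]
      exact ht
    have snn := aux Aux.nn _ rfl
    have sone := aux Aux.one _ rfl
    have se1 := aux Aux.e1 _ rfl
    have sx1 := aux Aux.x1 _ rfl
    have sh1 := aux Aux.h1 _ rfl
    have sg1 := aux Aux.g1 _ rfl
    have se2 := aux Aux.e2 _ rfl
    have sx2 := aux Aux.x2 _ rfl
    have sh2 := aux Aux.h2 _ rfl
    have sg2 := aux Aux.g2 _ rfl
    have sw2 := aux Aux.w2 _ rfl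
    have sv : (GateKind.conj (Sum.inr (v, Aux.h1)) (Sum.inr (v, Aux.g1))).Sat ε x (Sum.inl v) := by
      apply hsat _ _ (Or.inl rfl)
      show C.genGate (Sum.inl v) = _
      simp only [PureCircuit.genGate, hg]
    have sw : (GateKind.neg (Sum.inr (v, Aux.w2))).Sat ε x (Sum.inl w) := by
      apply hsat _ _ (Or.inr rfl)
      show C.genGate (Sum.inl w) = _
      simp only [PureCircuit.genGate, hw]
    simp only [GateKind.Sat] at snn sone se1 sx1 sh1 sg1 se2 sx2 sh2 sg2 sw2 sv sw
    have hone1 := (hx (Sum.inr (v, Aux.one))).2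
    refine ⟨fun h => block_zero h6 sone se1 sx1 sh1 sg1 sv h,
      fun h => block_one h6 hone1 se1 sx1 sh1 sg1 sv h (snn.2 h),
      fun h => sw.1 (block_zero h6 sone se2 sx2 sh2 sg2 sw2 h),
      fun h => sw.2 (block_one h6 hone1 se2 sx2 sh2 sg2 sw2 (snn.1 h) h),
      snn.1, snn.2⟩
  cases k with
  | neg u =>
    have s : (GateKind.neg (Sum.inl u)).Sat ε x (Sum.inl v) := by
      apply hsat _ _ (Or.inl rfl)
      show C.genGate (Sum.inl v) = _
      simp only [PureCircuit.genGate, hg]
    simp only [GateKind.Sat] at s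
    simp only [PKind.Sat, dec_eq_zero, dec_eq_one h2]
    exact s
  | disj u w =>
    have s : (GateKind.disj (Sum.inl u) (Sum.inl w)).Sat ε x (Sum.inl v) := by
      apply hsat _ _ (Or.inl rfl)
      show C.genGate (Sum.inl v) = _
      simp only [PureCircuit.genGate, hg]
    simp only [GateKind.Sat] at s
    simp only [PKind.Sat, dec_eq_zero, dec_eq_one h2]
    exact s
  | conj u w =>
    have s : (GateKind.conj (Sum.inl u) (Sum.inl w)).Sat ε x (Sum.inl v) := by
      apply hsat _ _ (Or.inl rfl)
      show C.genGate (Sum.inl v) = _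
      simp only [PureCircuit.genGate, hg]
    simp only [GateKind.Sat] at s
    simp only [PKind.Sat, dec_eq_zero, dec_eq_one h2]
    exact s
  | nor u w =>
    have s : (GateKind.neg (Sum.inr (v, Aux.orr))).Sat ε x (Sum.inl v) := by
      apply hsat _ _ (Or.inl rfl)
      show C.genGate (Sum.inl v) = _
      simp only [PureCircuit.genGate, hg]
    have s' : (GateKind.disj (Sum.inl u) (Sum.inl w)).Sat ε x (Sum.inr (v, Aux.orr)) := by
      apply hsat _ _ (Or.inl rfl)
      show C.genGate (Sum.inr (v, Aux.orr)) = _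
      simp only [PureCircuit.genGate, hg, norAux]
    simp only [GateKind.Sat] at s s'
    simp only [PKind.Sat, dec_eq_zero, dec_eq_one h2]
    exact ⟨fun h => s.1 (s'.2 h), fun h => s.2 (s'.1 h)⟩
  | purFst u w =>
    have hp : C.partner v = w := by simp only [PureCircuit.partner, hg]
    rw [hp] at hsat
    obtain ⟨p1, p2, p3, p4, p5, p6⟩ := hpur v u w hg hsat
    simp only [PKind.Sat, dec_eq_zero, dec_eq_one h2]
    refine ⟨?_, fun h => p1 (by linarith [p5 h]), p2⟩
    rcases le_total (x (Sum.inl u)) (x (Sum.inr (v, Aux.nn))) with h | h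
    · left; exact dec_ne_bot_of_le (p1 h)
    · right; exact dec_ne_bot_of_ge h2 (p3 h)
  | purSnd u w =>
    have hg' := C.pair_snd v u w hg
    have hp : C.partner v = w := by simp only [PureCircuit.partner, hg]
    rw [hp] at hsat
    obtain ⟨p1, p2, p3, p4, p5, p6⟩ := hpur w u v hg' (fun p k' h => hsat p k' h.symm)
    simp only [PKind.Sat, dec_eq_zero, dec_eq_one h2]
    exact ⟨p4, fun h => p3 (by linarith [p6 h])⟩

instance : Fintype Aux :=
  ⟨{Aux.nn, Aux.one, Aux.e1, Aux.x1, Aux.h1, Aux.g1, Aux.e2, Aux.x2, Aux.h2, Aux.g2, Aux.w2,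
    Aux.orr}, fun t => by cases t <;> simp⟩

/-- Gap preservation: the rounded assignment violates at most twice as many gates. -/
theorem viol_ncard_le [Finite N] (C : PureCircuit N) {ε : ℚ} (h6 : ε < 1 / 6)
    (x : N ⊕ (N × Aux) → ℚ) (hx : ∀ p, 0 ≤ x p ∧ x p ≤ 1) :
    (C.viol (fun v => dec ε (x (Sum.inl v)))).ncard ≤ 2 * (C.toGen.viol ε x).ncard := by
  classical
  set A : Set N := owner '' (C.toGen.viol ε x) with hA
  have hsub : C.viol (fun v => dec ε (x (Sum.inl v))) ⊆ A ∪ C.partner '' A := by
    rintro v ⟨k, hg, hk⟩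
    by_contra hv
    apply hk
    apply decode_local C h6 x hx v k hg
    intro p k' hp hgp
    by_contra hbad
    apply hv
    have hpv : p ∈ C.toGen.viol ε x := ⟨k', hgp, hbad⟩
    rcases hp with hp | hp
    · left
      exact ⟨p, hpv, hp⟩
    · right
      refine ⟨owner p, ⟨p, hpv, rfl⟩, ?_⟩
      rw [hp, partner_partner]
  have hAc : A.ncard ≤ (C.toGen.viol ε x).ncard := Set.ncard_image_le (Set.toFinite _)
  calc (C.viol (fun v => dec ε (x (Sum.inl v)))).ncard
      ≤ (A ∪ C.partner '' A).ncard := Set.ncard_le_ncard hsub (Set.toFinite _)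
    _ ≤ A.ncard + (C.partner '' A).ncard := Set.ncard_union_le _ _
    _ ≤ A.ncard + A.ncard := by
        have := Set.ncard_image_le (f := C.partner) (Set.toFinite A)
        omega
    _ ≤ 2 * (C.toGen.viol ε x).ncard := by omega

/-- The name of a node of `C.toGen` inside the block of its owner. -/
def tag : N ⊕ (N × Aux) → Option Aux
  | .inl _ => none
  | .inr (_, t) => some t

theorem owner_mem_gates (C : PureCircuit N) (p : N ⊕ (N × Aux)) (hp : p ∈ C.toGen.gates) :
    owner p ∈ C.gates := by
  have hp' : C.genGate p ≠ none := hp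
  show C.gate (owner p) ≠ none
  intro h
  apply hp'
  rcases p with z | ⟨z, t⟩
  · have h' : C.gate z = none := h
    simp only [PureCircuit.genGate, h']
  · have h' : C.gate z = none := h
    simp only [PureCircuit.genGate, h']

/-- The generalized circuit has at most thirteen times as many gates. -/
theorem gates_ncard_le [Finite N] (C : PureCircuit N) :
    C.toGen.gates.ncard ≤ 13 * C.gates.ncard := by
  classical
  have hinj : Function.Injective (fun p : N ⊕ (N × Aux) => (owner p, tag p)) := by
    rintro (z | ⟨z, t⟩) (z' | ⟨z', t'⟩) h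
    · simp only [owner, tag, Prod.mk.injEq, and_true] at h
      rw [h]
    · simp [owner, tag] at h
    · simp [owner, tag] at h
    · simp only [owner, tag, Prod.mk.injEq, Option.some.injEq] at h
      rw [h.1, h.2]
  have h1 : C.toGen.gates.ncard
      = ((fun p : N ⊕ (N × Aux) => (owner p, tag p)) '' C.toGen.gates).ncard :=
    (Set.ncard_image_of_injective _ hinj).symm
  have h2 : ((fun p : N ⊕ (N × Aux) => (owner p, tag p)) '' C.toGen.gates)
      ⊆ C.gates ×ˢ (Set.univ : Set (Option Aux)) := by
    rintro _ ⟨p, hp, rfl⟩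
    exact ⟨owner_mem_gates C p hp, Set.mem_univ _⟩
  have h3 : (C.gates ×ˢ (Set.univ : Set (Option Aux))).ncard = C.gates.ncard * 13 := by
    rw [Set.ncard_prod, Set.ncard_univ]
    congr 1
    rw [Nat.card_eq_fintype_card]
    rfl
  calc C.toGen.gates.ncard
      = ((fun p : N ⊕ (N × Aux) => (owner p, tag p)) '' C.toGen.gates).ncard := h1
    _ ≤ (C.gates ×ˢ (Set.univ : Set (Option Aux))).ncard :=
        Set.ncard_le_ncard h2 (Set.toFinite _)
    _ = 13 * C.gates.ncard := by rw [h3, mul_comm]

/-- Fractional form: all but a `δ` fraction satisfied gives all but a `26 δ` fraction satisfied. -/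
theorem viol_fraction [Finite N] (C : PureCircuit N) {ε δ : ℚ} (h6 : ε < 1 / 6)
    (x : N ⊕ (N × Aux) → ℚ) (hx : ∀ p, 0 ≤ x p ∧ x p ≤ 1)
    (hδ : ((C.toGen.viol ε x).ncard : ℚ) ≤ δ * (C.toGen.gates.ncard : ℚ)) :
    ((C.viol (fun v => dec ε (x (Sum.inl v)))).ncard : ℚ) ≤ 26 * δ * (C.gates.ncard : ℚ) := by
  have h1 : ((C.viol (fun v => dec ε (x (Sum.inl v)))).ncard : ℚ)
      ≤ 2 * ((C.toGen.viol ε x).ncard : ℚ) := by
    exact_mod_cast viol_ncard_le C h6 x hx
  have h2 : (C.toGen.gates.ncard : ℚ) ≤ 13 * (C.gates.ncard : ℚ) := by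
    exact_mod_cast gates_ncard_le C
  by_cases hd : 0 ≤ δ
  · have h3 : δ * (C.toGen.gates.ncard : ℚ) ≤ δ * (13 * (C.gates.ncard : ℚ)) :=
      mul_le_mul_of_nonneg_left h2 hd
    linarith
  · exfalso
    have hd' : δ < 0 := not_le.mp hd
    have hpos : 0 < C.toGen.gates.ncard := by
      obtain ⟨v, hv⟩ := C.toGen.nonempty
      exact (Set.ncard_pos (Set.toFinite _)).mpr ⟨v, hv⟩
    have hpos' : (0 : ℚ) < (C.toGen.gates.ncard : ℚ) := by exact_mod_cast hpos
    have h4 : δ * (C.toGen.gates.ncard : ℚ) < 0 := mul_neg_of_neg_of_pos hd' hpos'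
    have h5 : (0 : ℚ) ≤ ((C.toGen.viol ε x).ncard : ℚ) := Nat.cast_nonneg _
    linarith

end Vale.Agent.P330
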