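import Mathlib
import Vale.Agent.P330.AmpCircuit
import Vale.Agent.P330.Robust
import Vale.Agent.P330.AmpDefs2

/-!
Counting violated gates: from the Pure-Circuit instance back to the generalized circuit.
-/

namespace Vale.Agent.P330

variable {V : Type} {k : ℕ}

/-- The nodes that carry a gate and are read by more than `D` gates. -/
def GenCircuit.heavy (G : GenCircuit V) (D : ℕ) : Set V :=
  {v | G.gate v ≠ none ∧ D < (G.readers v).ncard}

theorem keep_iff (G : GenCircuit V) (D : ℕ) (v : V) :
    G.keep D v = true ↔ G.gate v ≠ none ∧ (G.readers v).ncard ≤ D := by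
  simp [GenCircuit.keep]

theorem reads_pair (kd : GateKind V) (z : V) : ∃ a b, ∀ v, kd.Reads v → v = a ∨ v = b := by
  cases kd with
  | const α => exact ⟨z, z, fun v h => absurd h (by simp [GateKind.Reads])⟩
  | scale α a => exact ⟨a, a, fun v h => Or.inl h⟩
  | copy a => exact ⟨a, a, fun v h => Or.inl h⟩
  | add a b => exact ⟨a, b, fun v h => h⟩
  | sub a b => exact ⟨a, b, fun v h => h⟩
  | less a b => exact ⟨a, b, fun v h => h⟩
  | neg a => exact ⟨a, a, fun v h => Or.inl h⟩
  | disj a b => exact ⟨a, b, fun v h => h⟩
  | conj a b => exact ⟨a, b, fun v h => h⟩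

/-- Few nodes are read by many gates. -/
theorem heavy_card [Finite V] (G : GenCircuit V) (D : ℕ) :
    (D + 1) * (G.heavy D).ncard ≤ 2 * G.gates.ncard := by
  classical
  have := Fintype.ofFinite V
  have key := Finset.card_nsmul_le_card_nsmul (R := ℕ) (s := (G.heavy D).toFinset)
    (t := G.gates.toFinset) (r := fun h z => z ∈ G.readers h) (m := D + 1) (n := 2)
    (by
      intro h hh
      have hh' : h ∈ G.heavy D := by simpa using hh
      have e : G.gates.toFinset.bipartiteAbove (fun h z => z ∈ G.readers h) h
          = (G.readers h).toFinset := by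
        ext z
        simp only [Finset.mem_bipartiteAbove, Set.mem_toFinset]
        constructor
        · exact fun hz => hz.2
        · intro hz
          refine ⟨?_, hz⟩
          obtain ⟨kd, hg, _⟩ := hz
          show G.gate z ≠ none
          rw [hg]; simp
      rw [e, ← Set.ncard_eq_toFinset_card']
      exact hh'.2)
    (by
      intro z hz
      have hz' : G.gate z ≠ none := by
        have : z ∈ G.gates := by simpa using hz
        exact this
      rcases hg : G.gate z with _ | kd
      · exact absurd hg hz'
      · obtain ⟨a, b, hab⟩ := reads_pair kd z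
        have hsub : (G.heavy D).toFinset.bipartiteBelow (fun h z => z ∈ G.readers h) z
            ⊆ {a, b} := by
          intro h hh
          simp only [Finset.mem_bipartiteBelow, Set.mem_toFinset] at hh
          obtain ⟨kd', hg', hr⟩ := hh.2
          rw [hg] at hg'
          cases hg'
          simp only [Finset.mem_insert, Finset.mem_singleton]
          exact hab h hr
        exact le_trans (Finset.card_le_card hsub) Finset.card_le_two)
  rw [← Set.ncard_eq_toFinset_card', ← Set.ncard_eq_toFinset_card'] at key
  simp only [smul_eq_mul] at key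
  linarith

/-- The violated gates of `G` under the assignment read off. -/
theorem viol_amp [Finite V] (G : GenCircuit V) (D : ℕ) (y : V × Gad k → Tri) {ε : ℚ}
    (h6 : ε < 1 / 6) (hK : 2 ≤ ε * ((k : ℚ) + 1)) :
    (G.viol ε (readOff (G.keep D) y)).ncard
      ≤ (G.heavy D).ncard + (D + 1) * ((G.toPure k (G.keep D)).viol y).ncard := by
  classical
  have := Fintype.ofFinite V
  set P := G.toPure k (G.keep D) with hP
  set B : Set V := Prod.fst '' (P.viol y) with hB
  set B' : Finset V := (B.toFinset).filter (fun a => G.keep D a = true) with hB'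
  have hsub : G.viol ε (readOff (G.keep D) y) ⊆ (G.heavy D ∪ B) ∪ ⋃ a ∈ B', G.readers a := by
    rintro z ⟨kd, hg, hns⟩
    by_cases hz : G.keep D z = true
    · by_contra hout
      apply hns
      apply decode_gate G (G.keep D) (fun v hv => ((keep_iff G D v).mp hv).1) y h6 hK z kd hg hz
      intro a ha g kd' hgg
      by_contra hbad
      apply hout
      have haB : a ∈ B := ⟨(a, g), ⟨kd', hgg, hbad⟩, rfl⟩
      rcases ha with rfl | ⟨hr, hga⟩
      · left; right; exact haB
      · right
        simp only [Set.mem_iUnion]
        refine ⟨a, ?_, kd, hg, hr⟩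
        simp only [hB', Finset.mem_filter, Set.mem_toFinset]
        exact ⟨haB, hga⟩
    · left; left
      have hne : G.gate z ≠ none := by rw [hg]; simp
      refine ⟨hne, ?_⟩
      by_contra hc
      exact hz ((keep_iff G D z).mpr ⟨hne, not_lt.mp hc⟩)
  have hBc : B.ncard ≤ (P.viol y).ncard := Set.ncard_image_le (Set.toFinite _)
  have hB'c : B'.card ≤ B.ncard := by
    rw [Set.ncard_eq_toFinset_card']
    exact Finset.card_filter_le _ _
  have hU : (⋃ a ∈ B', G.readers a).ncard ≤ B'.card * D := by
    refine le_trans (Finset.set_ncard_biUnion_le B' _) ?_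
    have := Finset.sum_le_card_nsmul B' (fun a => (G.readers a).ncard) D (by
      intro a ha
      simp only [hB', Finset.mem_filter] at ha
      exact ((keep_iff G D a).mp ha.2).2)
    simpa using this
  calc (G.viol ε (readOff (G.keep D) y)).ncard
      ≤ ((G.heavy D ∪ B) ∪ ⋃ a ∈ B', G.readers a).ncard :=
        Set.ncard_le_ncard hsub (Set.toFinite _)
    _ ≤ (G.heavy D ∪ B).ncard + (⋃ a ∈ B', G.readers a).ncard := Set.ncard_union_le _ _
    _ ≤ (G.heavy D).ncard + B.ncard + B'.card * D := by
        have := Set.ncard_union_le (G.heavy D) B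
        omega
    _ ≤ (G.heavy D).ncard + (D + 1) * (P.viol y).ncard := by
        have h1 : B'.card * D ≤ (P.viol y).ncard * D := Nat.mul_le_mul_right D (by omega)
        nlinarith

/-- The Pure-Circuit instance has at most `|Gad k|` gates for each gate of `G`. -/
theorem pure_gates_le [Finite V] (G : GenCircuit V) (good : V → Bool) :
    (G.toPure k good).gates.ncard ≤ Fintype.card (Gad k) * G.gates.ncard := by
  classical
  have hsub : (G.toPure k good).gates ⊆ G.gates ×ˢ (Set.univ : Set (Gad k)) := by
    rintro ⟨z, g⟩ hz
    refine ⟨?_, Set.mem_univ _⟩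
    show G.gate z ≠ none
    intro hn
    exact hz (pureGate_none G good hn g)
  calc (G.toPure k good).gates.ncard
      ≤ (G.gates ×ˢ (Set.univ : Set (Gad k))).ncard := Set.ncard_le_ncard hsub (Set.toFinite _)
    _ = Fintype.card (Gad k) * G.gates.ncard := by
        rw [Set.ncard_prod, Set.ncard_univ, Nat.card_eq_fintype_card, mul_comm]

theorem readOff_mem (good : V → Bool) (y : V × Gad k → Tri) (v : V) :
    0 ≤ readOff good y v ∧ readOff good y v ≤ 1 := by
  have hK : (0 : ℚ) < (k : ℚ) + 1 := by positivity
  unfold readOff
  split_ifs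
  · refine ⟨by positivity, ?_⟩
    rw [div_le_one hK]
    have := bundleOnes_le y v
    exact_mod_cast this
  · exact ⟨le_rfl, zero_le_one⟩

end Vale.Agent.P330
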