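import Mathlib
import Vale.Agent.P330.AmpCount

/-!
Amplification of the precision: from precision `ε₀` to any precision below `1/6`.
-/

namespace Vale.Agent.P330

variable {V : Type}

/-- The parameters of the simulation. -/
noncomputable def ampK (ε₀ : ℚ) : ℕ := ⌈2 / ε₀⌉₊

noncomputable def ampD (δ₀ : ℚ) : ℕ := ⌈4 / δ₀⌉₊

noncomputable def ampDelta (ε₀ δ₀ : ℚ) : ℚ :=
  δ₀ / (52 * ((ampD δ₀ : ℚ) + 1) * (Fintype.card (Gad (ampK ε₀)) : ℚ))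

theorem ampK_spec {ε₀ : ℚ} (h0 : 0 < ε₀) : 2 ≤ ε₀ * ((ampK ε₀ : ℚ) + 1) := by
  have h1 : 2 / ε₀ ≤ (ampK ε₀ : ℚ) := Nat.le_ceil _
  rw [div_le_iff₀ h0] at h1
  nlinarith

theorem ampD_spec {δ₀ : ℚ} (h0 : 0 < δ₀) : 4 ≤ δ₀ * ((ampD δ₀ : ℚ) + 1) := by
  have h1 : 4 / δ₀ ≤ (ampD δ₀ : ℚ) := Nat.le_ceil _
  rw [div_le_iff₀ h0] at h1
  nlinarith

theorem card_gad_pos (k : ℕ) : 0 < Fintype.card (Gad k) :=
  Fintype.card_pos_iff.mpr ⟨Gad.one⟩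

theorem ampDelta_pos {ε₀ δ₀ : ℚ} (h0 : 0 < δ₀) : 0 < ampDelta ε₀ δ₀ := by
  unfold ampDelta
  have : (0 : ℚ) < (Fintype.card (Gad (ampK ε₀)) : ℚ) := by exact_mod_cast card_gad_pos _
  positivity

theorem ampDelta_spec {ε₀ δ₀ : ℚ} :
    ampDelta ε₀ δ₀ * (52 * ((ampD δ₀ : ℚ) + 1) * (Fintype.card (Gad (ampK ε₀)) : ℚ)) = δ₀ := by
  unfold ampDelta
  have : (0 : ℚ) < (Fintype.card (Gad (ampK ε₀)) : ℚ) := by exact_mod_cast card_gad_pos _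
  have h2 : (0 : ℚ) < 52 * ((ampD δ₀ : ℚ) + 1) * (Fintype.card (Gad (ampK ε₀)) : ℚ) := by
    positivity
  exact div_mul_cancel₀ _ h2.ne'

/-- From the generalized circuit to Pure-Circuit, in fractions of violated gates. -/
theorem pure_fraction [Finite V] (G : GenCircuit V) {ε₀ δ₀ : ℚ} (h0 : 0 < ε₀) (h6 : ε₀ < 1 / 6)
    (hδ : 0 < δ₀) (y : V × Gad (ampK ε₀) → Tri)
    (hy : (((G.toPure (ampK ε₀) (G.keep (ampD δ₀))).viol y).ncard : ℚ)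
      ≤ 26 * ampDelta ε₀ δ₀ * ((G.toPure (ampK ε₀) (G.keep (ampD δ₀))).gates.ncard : ℚ)) :
    ((G.viol ε₀ (readOff (G.keep (ampD δ₀)) y)).ncard : ℚ) ≤ δ₀ * (G.gates.ncard : ℚ) := by
  have h1 : ((G.viol ε₀ (readOff (G.keep (ampD δ₀)) y)).ncard : ℚ)
      ≤ ((G.heavy (ampD δ₀)).ncard : ℚ)
        + ((ampD δ₀ : ℚ) + 1) * (((G.toPure (ampK ε₀) (G.keep (ampD δ₀))).viol y).ncard : ℚ) := by
    exact_mod_cast viol_amp G (ampD δ₀) y h6 (ampK_spec h0)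
  have h2 : ((ampD δ₀ : ℚ) + 1) * ((G.heavy (ampD δ₀)).ncard : ℚ) ≤ 2 * (G.gates.ncard : ℚ) := by
    exact_mod_cast heavy_card G (ampD δ₀)
  have h3 : ((G.toPure (ampK ε₀) (G.keep (ampD δ₀))).gates.ncard : ℚ)
      ≤ (Fintype.card (Gad (ampK ε₀)) : ℚ) * (G.gates.ncard : ℚ) := by
    exact_mod_cast pure_gates_le G (G.keep (ampD δ₀))
  have hD := ampD_spec hδ
  have hdp := ampDelta_pos (ε₀ := ε₀) hδ
  have hds := ampDelta_spec (ε₀ := ε₀) (δ₀ := δ₀)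
  set E : ℚ := (ampD δ₀ : ℚ) + 1 with hE
  set c : ℚ := (Fintype.card (Gad (ampK ε₀)) : ℚ) with hc
  set T : ℚ := (G.gates.ncard : ℚ) with hT
  set hv : ℚ := ((G.heavy (ampD δ₀)).ncard : ℚ) with hhv
  set vp : ℚ := (((G.toPure (ampK ε₀) (G.keep (ampD δ₀))).viol y).ncard : ℚ) with hvp
  set Tp : ℚ := ((G.toPure (ampK ε₀) (G.keep (ampD δ₀))).gates.ncard : ℚ) with hTp
  set dl : ℚ := ampDelta ε₀ δ₀ with hdl
  have hE0 : 0 < E := by positivity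
  have hv0 : 0 ≤ hv := Nat.cast_nonneg _
  -- the heavy nodes
  have a1 : hv ≤ δ₀ * T / 2 := by
    have : 4 * hv ≤ δ₀ * E * hv := mul_le_mul_of_nonneg_right hD hv0
    have : δ₀ * (E * hv) ≤ δ₀ * (2 * T) := mul_le_mul_of_nonneg_left h2 hδ.le
    nlinarith
  -- the broken gadgets
  have a2 : E * vp ≤ δ₀ * T / 2 := by
    have b1 : vp ≤ 26 * dl * (c * T) :=
      le_trans hy (mul_le_mul_of_nonneg_left h3 (by positivity))
    have b2 : E * vp ≤ E * (26 * dl * (c * T)) := mul_le_mul_of_nonneg_left b1 hE0.le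
    have b3 : E * (26 * dl * (c * T)) = (dl * (52 * E * c)) * T / 2 := by ring
    rw [b3, hds] at b2
    exact b2
  linarith

/-- Amplification, in fractions of violated gates. -/
theorem amp_fraction [Finite V] (G : GenCircuit V) {ε₀ δ₀ ε : ℚ} (h0 : 0 < ε₀) (h6 : ε₀ < 1 / 6)
    (hδ : 0 < δ₀) (hε : ε < 1 / 6)
    (x : (V × Gad (ampK ε₀)) ⊕ ((V × Gad (ampK ε₀)) × Aux) → ℚ) (hx : ∀ p, 0 ≤ x p ∧ x p ≤ 1)
    (hv : (((G.amp (ampK ε₀) (ampD δ₀)).viol ε x).ncard : ℚ)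
      ≤ ampDelta ε₀ δ₀ * ((G.amp (ampK ε₀) (ampD δ₀)).gates.ncard : ℚ)) :
    ((G.viol ε₀ (G.back (ampK ε₀) (ampD δ₀) ε x)).ncard : ℚ) ≤ δ₀ * (G.gates.ncard : ℚ) :=
  pure_fraction G h0 h6 hδ _ (viol_fraction (G.toPure (ampK ε₀) (G.keep (ampD δ₀))) hε x hx hv)

theorem amp_gates_le [Finite V] (G : GenCircuit V) (k D : ℕ) :
    (G.amp k D).gates.ncard ≤ 13 * Fintype.card (Gad k) * G.gates.ncard := by
  have h1 := gates_ncard_le (G.toPure k (G.keep D))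
  have h2 := pure_gates_le (k := k) G (G.keep D)
  calc (G.amp k D).gates.ncard ≤ 13 * (G.toPure k (G.keep D)).gates.ncard := h1
    _ ≤ 13 * (Fintype.card (Gad k) * G.gates.ncard) := Nat.mul_le_mul_left 13 h2
    _ = 13 * Fintype.card (Gad k) * G.gates.ncard := by ring

end Vale.Agent.P330
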