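import Mathlib
import Vale.Agent.P330.SixthDefs
import Vale.Agent.P330.AmpDefs2
import Vale.Agent.P330.RobustDefs

/-!
The three statements proved about the precision parameter of generalized circuits.
-/

namespace Vale.Agent.P330

/-- (A) For every generalized circuit `G` on a finite node set and every rational `ε ≥ 1/6` an
explicit assignment with values in `[0,1]` satisfies ALL gates with precision `ε`. -/
def EasySide : Prop :=
  ∀ (V : Type) [Fintype V] (G : GenCircuit V) (ε : ℚ),
    (1 / 6 ≤ ε → ε < 1 / 4 →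
      (∀ v, 0 ≤ G.solve6 ε v ∧ G.solve6 ε v ≤ 1) ∧
      (∀ v k, G.gate v = some k → k.Sat ε (G.solve6 ε) v)) ∧
    (1 / 4 ≤ ε → ε < 1 / 2 →
      (∀ v, 0 ≤ G.solve ε v ∧ G.solve ε v ≤ 1) ∧
      (∀ v k, G.gate v = some k → k.Sat ε (G.solve ε) v)) ∧
    (1 / 2 ≤ ε → ∀ v k, G.gate v = some k → k.Sat ε (fun _ => 1 / 2) v)

/-- (B) For every `ε < 1/6` and every Pure-Circuit instance `C` on a finite node set: `C.toGen` has
at most `13` times as many gates as `C`, and if an assignment `x` with values in `[0,1]` fails to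
`ε`-satisfy at most a `δ` fraction of the gates of `C.toGen`, then the rounded assignment violates at
most a `26 δ` fraction of the gates of `C`. -/
def PureToGen : Prop :=
  ∀ (N : Type) [Finite N] (C : PureCircuit N) (ε : ℚ), ε < 1 / 6 →
    C.toGen.gates.ncard ≤ 13 * C.gates.ncard ∧
    ∀ x : N ⊕ (N × Aux) → ℚ, (∀ v, 0 ≤ x v ∧ x v ≤ 1) →
      ∀ δ : ℚ, ((C.toGen.viol ε x).ncard : ℚ) ≤ δ * (C.toGen.gates.ncard : ℚ) →
        ((C.viol (fun v => dec ε (x (Sum.inl v)))).ncard : ℚ) ≤ 26 * δ * (C.gates.ncard : ℚ)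

/-- (C) For all `0 < ε₀ < 1/6` and `δ₀ > 0` there are `k`, `D` and `δ > 0` such that for every
generalized circuit `G` on a finite node set:
* the Pure-Circuit instance `G.toPure k (G.keep D)` has at most `|Gad k|` gates for each gate of `G`,
  and every assignment of it that violates at most a `26 δ` fraction of its gates is read off as an
  assignment of `G` with values in `[0,1]` that fails to `ε₀`-satisfy at most a `δ₀` fraction of the
  gates of `G`;
* the generalized circuit `G.amp k D` has at most `13 |Gad k|` gates for each gate of `G`, and for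
  EVERY `ε < 1/6` every assignment of it with values in `[0,1]` that fails to `ε`-satisfy at most a
  `δ` fraction of its gates is read off as an assignment of `G` with values in `[0,1]` that fails to
  `ε₀`-satisfy at most a `δ₀` fraction of the gates of `G`. -/
def Amplification : Prop :=
  ∀ ε₀ δ₀ : ℚ, 0 < ε₀ → ε₀ < 1 / 6 → 0 < δ₀ → ∃ (k D : ℕ) (δ : ℚ), 0 < δ ∧
    ∀ (V : Type) [Finite V] (G : GenCircuit V),
      (G.toPure k (G.keep D)).gates.ncard ≤ Nat.card (Gad k) * G.gates.ncard ∧
      (∀ y : V × Gad k → Tri,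
        (((G.toPure k (G.keep D)).viol y).ncard : ℚ)
            ≤ 26 * δ * ((G.toPure k (G.keep D)).gates.ncard : ℚ) →
          (∀ v, 0 ≤ readOff (G.keep D) y v ∧ readOff (G.keep D) y v ≤ 1) ∧
          ((G.viol ε₀ (readOff (G.keep D) y)).ncard : ℚ) ≤ δ₀ * (G.gates.ncard : ℚ)) ∧
      (G.amp k D).gates.ncard ≤ 13 * Nat.card (Gad k) * G.gates.ncard ∧
      (∀ ε : ℚ, ε < 1 / 6 →
        ∀ x : (V × Gad k) ⊕ ((V × Gad k) × Aux) → ℚ, (∀ p, 0 ≤ x p ∧ x p ≤ 1) →
          (((G.amp k D).viol ε x).ncard : ℚ) ≤ δ * ((G.amp k D).gates.ncard : ℚ) →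
            (∀ v, 0 ≤ G.back k D ε x v ∧ G.back k D ε x v ≤ 1) ∧
            ((G.viol ε₀ (G.back k D ε x)).ncard : ℚ) ≤ δ₀ * (G.gates.ncard : ℚ))

end Vale.Agent.P330
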