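import Mathlib
import Vale.Agent.P330.Defs

/-!
For `1/4 ≤ ε ≤ 1/2` the assignment `G.solve ε` satisfies every gate.
-/

namespace Vale.Agent.P330

variable {V : Type}

/-- abstract stabilisation lemma -/
lemma iterate_stabilises {α : Type*} (f : α → α) (μ : α → ℕ) (x : α) (K : ℕ)
    (hb : ∀ i, μ (f^[i] x) ≤ K)
    (hstep : ∀ i, f^[i + 1] x = f^[i] x ∨ μ (f^[i] x) < μ (f^[i + 1] x)) :
    f (f^[K] x) = f^[K] x := by
  have key : ∀ i, f^[i + 1] x = f^[i] x ∨ i + 1 ≤ μ (f^[i + 1] x) := by
    intro i
    induction i with
    | zero =>
      rcases hstep 0 with h | h
      · left; exact h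
      · right; omega
    | succ i ih =>
      rcases ih with h | h
      · left
        rw [Function.iterate_succ_apply', h, ← Function.iterate_succ_apply' f]
        exact h
      · rcases hstep (i + 1) with h' | h'
        · left; exact h'
        · right; omega
  rcases key K with h | h
  · rw [← Function.iterate_succ_apply' f]; exact h
  · have := hb (K + 1)
    omega

def InRange (ε : ℚ) (s : V → ℚ) : Prop := ∀ v, ε ≤ s v ∧ s v ≤ 1 - ε

def InfoLe (s s' : V → ℚ) : Prop := ∀ v, s v = 1 / 2 ∨ s v = s' v

lemma round_inRange (G : GenCircuit V) {ε : ℚ} (h2 : ε ≤ 1 / 2) (s : V → ℚ) :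
    InRange ε (G.round ε s) := by
  intro v
  unfold GenCircuit.round
  rcases hg : G.gate v with _ | k
  · simp only [localRule]; constructor <;> linarith
  · cases k with
    | const α =>
      simp only [localRule]
      refine ⟨le_max_left _ _, max_le (by linarith) (min_le_right _ _)⟩
    | scale α a =>
      simp only [localRule]
      have := G.scale_param v α a hg
      refine ⟨le_max_right _ _, max_le (by linarith [this.2]) (by linarith)⟩
    | copy a => simp only [localRule]; constructor <;> linarith
    | add a b => simp only [localRule]; constructor <;> linarith
    | sub a b => simp only [localRule]; constructor <;> linarith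
    | less a b =>
      simp only [localRule]
      split_ifs <;> constructor <;> linarith
    | neg a =>
      simp only [localRule]
      split_ifs <;> constructor <;> linarith
    | disj a b =>
      simp only [localRule]
      split_ifs <;> constructor <;> linarith
    | conj a b =>
      simp only [localRule]
      split_ifs <;> constructor <;> linarith

lemma round_mono (G : GenCircuit V) {ε : ℚ} (h1 : 1 / 4 ≤ ε) (h2 : ε < 1 / 2) {s s' : V → ℚ}
    (hs : InRange ε s) (hle : InfoLe s s') :
    InfoLe (G.round ε s) (G.round ε s') := by
  intro v
  unfold GenCircuit.round
  -- a value that is `≤ ε` or `≥ 1 - ε` is not `1/2`, so it is kept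
  have keep_lo : ∀ a, s a ≤ ε → s' a = s a := by
    intro a ha
    rcases hle a with h | h
    · exfalso; linarith
    · exact h.symm
  have keep_hi : ∀ a, 1 - ε ≤ s a → s' a = s a := by
    intro a ha
    rcases hle a with h | h
    · exfalso; linarith
    · exact h.symm
  rcases hg : G.gate v with _ | k
  · right; rfl
  · cases k with
    | const α => right; rfl
    | scale α a => right; rfl
    | copy a => right; rfl
    | add a b => right; rfl
    | sub a b => right; rfl
    | less a b =>
      simp only [localRule]
      by_cases c1 : s a < s b - ε
      · right
        have ha : s' a = s a := by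
          rcases hle a with h | h
          · exfalso; have := (hs b).2; linarith
          · exact h.symm
        have hb : s' b = s b := by
          rcases hle b with h | h
          · exfalso; have := (hs a).1; linarith
          · exact h.symm
        rw [ha, hb]
      · by_cases c2 : s b + ε < s a
        · right
          have ha : s' a = s a := by
            rcases hle a with h | h
            · exfalso; have := (hs b).1; linarith
            · exact h.symm
          have hb : s' b = s b := by
            rcases hle b with h | h
            · exfalso; have := (hs a).2; linarith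
            · exact h.symm
          rw [ha, hb]
        · left
          rw [if_neg c1, if_neg c2]
    | neg a =>
      simp only [localRule]
      by_cases c1 : s a ≤ ε
      · right; rw [keep_lo a c1]
      · by_cases c2 : 1 - ε ≤ s a
        · right; rw [keep_hi a c2]
        · left; rw [if_neg c1, if_neg c2]
    | disj a b =>
      simp only [localRule]
      by_cases c1 : 1 - ε ≤ s a ∨ 1 - ε ≤ s b
      · right
        rw [if_pos c1, if_pos]
        rcases c1 with c | c
        · left; rw [keep_hi a c]; exact c
        · right; rw [keep_hi b c]; exact c
      · by_cases c2 : s a ≤ ε ∧ s b ≤ ε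
        · right; rw [keep_lo a c2.1, keep_lo b c2.2]
        · left; rw [if_neg c1, if_neg c2]
    | conj a b =>
      simp only [localRule]
      by_cases c1 : s a ≤ ε ∨ s b ≤ ε
      · right
        rw [if_pos c1, if_pos]
        rcases c1 with c | c
        · left; rw [keep_lo a c]; exact c
        · right; rw [keep_lo b c]; exact c
      · by_cases c2 : 1 - ε ≤ s a ∧ 1 - ε ≤ s b
        · right; rw [keep_hi a c2.1, keep_hi b c2.2]
        · left; rw [if_neg c1, if_neg c2]

/-- A fixed point of the round map that is in range satisfies every gate. -/
lemma sat_of_fixed (G : GenCircuit V) {ε : ℚ} (h1 : 1 / 4 ≤ ε) (h2 : ε ≤ 1 / 2) {s : V → ℚ}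
    (hs : InRange ε s) (hfix : G.round ε s = s) (v : V) (k : GateKind V)
    (hg : G.gate v = some k) : k.Sat ε s v := by
  have hv : s v = localRule ε s (some k) := by
    have := congrFun hfix v
    unfold GenCircuit.round at this
    rw [hg] at this
    exact this.symm
  cases k with
  | const α =>
    simp only [localRule] at hv
    simp only [GateKind.Sat]
    have hα := G.const_param v α hg
    rw [hv, abs_le]
    constructor
    · have h3 : min α (1 - ε) ≤ max ε (min α (1 - ε)) := le_max_right _ _
      have h4 : α - ε ≤ min α (1 - ε) := le_min (by linarith) (by linarith [hα.2])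
      linarith
    · have : max ε (min α (1 - ε)) ≤ α + ε := by
        apply max_le
        · linarith [hα.1]
        · have := min_le_left α (1 - ε); linarith
      linarith
  | scale α a =>
    simp only [localRule] at hv
    simp only [GateKind.Sat]
    have hα := G.scale_param v α a hg
    have ha := hs a
    have p1 : α * s a ≤ α * (1 - ε) := mul_le_mul_of_nonneg_left ha.2 hα.1
    have p2 : α * ε ≤ α * s a := mul_le_mul_of_nonneg_left ha.1 hα.1
    have p3 : α * ε ≤ 1 * ε := mul_le_mul_of_nonneg_right hα.2 (by linarith)
    have p4 : 0 ≤ α * ε := mul_nonneg hα.1 (by linarith)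
    rw [hv, abs_le]
    rcases le_total (α / 2) ε with hc | hc
    · rw [max_eq_right hc]
      constructor
      · nlinarith
      · nlinarith
    · rw [max_eq_left hc]
      constructor
      · nlinarith
      · nlinarith
  | copy a =>
    simp only [localRule] at hv
    simp only [GateKind.Sat]
    have ha := hs a
    rw [hv, abs_le]
    constructor <;> linarith
  | add a b =>
    simp only [localRule] at hv
    simp only [GateKind.Sat]
    have ha := hs a
    have hb := hs b
    rw [hv, abs_le]
    constructor
    · have : min (s a + s b) 1 ≤ 1 := min_le_right _ _
      linarith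
    · have : 2 * ε ≤ min (s a + s b) 1 := le_min (by linarith) (by linarith)
      linarith
  | sub a b =>
    simp only [localRule] at hv
    simp only [GateKind.Sat]
    have ha := hs a
    have hb := hs b
    rw [hv, abs_le]
    constructor
    · have : max (s a - s b) 0 ≤ 1 - 2 * ε := max_le (by linarith) (by linarith)
      linarith
    · have : 0 ≤ max (s a - s b) 0 := le_max_right _ _
      linarith
  | less a b =>
    simp only [localRule] at hv
    simp only [GateKind.Sat]
    constructor
    · intro c
      rw [hv, if_pos c]
    · intro c
      have c1 : ¬ s a < s b - ε := by intro h; linarith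
      rw [hv, if_neg c1, if_pos c]
  | neg a =>
    simp only [localRule] at hv
    simp only [GateKind.Sat]
    constructor
    · intro c
      rw [hv, if_pos c]
    · intro c
      rw [hv]
      split_ifs <;> linarith
  | disj a b =>
    simp only [localRule] at hv
    simp only [GateKind.Sat]
    constructor
    · intro c
      rw [hv, if_pos c]
    · intro c
      rw [hv]
      split_ifs with h3
      · rcases h3 with h | h
        · linarith [c.1]
        · linarith [c.2]
      · exact le_refl _
  | conj a b =>
    simp only [localRule] at hv
    simp only [GateKind.Sat]
    constructor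
    · intro c
      rw [hv]
      split_ifs with h3
      · rcases h3 with h | h
        · linarith [c.1]
        · linarith [c.2]
      · exact le_refl _
    · intro c
      rw [hv, if_pos c]

lemma infoLe_card [Fintype V] [DecidableEq V] {s s' : V → ℚ} (hle : InfoLe s s') :
    s' = s ∨ (Finset.univ.filter (fun v => s v ≠ 1 / 2)).card
      < (Finset.univ.filter (fun v => s' v ≠ 1 / 2)).card := by
  by_cases h : s' = s
  · left; exact h
  · right
    have : ∃ v, s' v ≠ s v := by
      by_contra hcon
      exact h (funext (fun w => by
        by_contra hw
        exact hcon ⟨w, hw⟩))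
    obtain ⟨v, hv⟩ := this
    apply Finset.card_lt_card
    rw [Finset.ssubset_iff_of_subset]
    · refine ⟨v, ?_, ?_⟩
      · simp only [Finset.mem_filter, Finset.mem_univ, true_and]
        rcases hle v with h1 | h1
        · rw [h1] at hv; exact hv
        · exact absurd h1.symm hv
      · simp only [Finset.mem_filter, Finset.mem_univ, true_and, not_not]
        rcases hle v with h1 | h1
        · exact h1
        · exact absurd h1.symm hv
    · intro w hw
      simp only [Finset.mem_filter, Finset.mem_univ, true_and] at hw ⊢
      rcases hle w with h1 | h1
      · exact absurd h1 hw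
      · rw [← h1]; exact hw

lemma solve_fixed [Fintype V] (G : GenCircuit V) {ε : ℚ} (h1 : 1 / 4 ≤ ε) (h2 : ε < 1 / 2) :
    G.round ε (G.solve ε) = G.solve ε ∧ InRange ε (G.solve ε) := by
  classical
  set f := G.round ε with hf
  set x0 : V → ℚ := fun _ => 1 / 2 with hx0
  have hrange : ∀ i, InRange ε (f^[i] x0) := by
    intro i
    cases i with
    | zero => intro v; simp only [Function.iterate_zero, id, hx0]; constructor <;> linarith
    | succ i =>
      rw [Function.iterate_succ_apply']
      exact round_inRange G h2.le _
  have hchain : ∀ i, InfoLe (f^[i] x0) (f^[i + 1] x0) := by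
    intro i
    induction i with
    | zero => intro v; left; rfl
    | succ i ih =>
      rw [Function.iterate_succ_apply', Function.iterate_succ_apply' f (i + 1)]
      exact round_mono G h1 h2 (hrange i) ih
  refine ⟨?_, hrange _⟩
  apply iterate_stabilises f (fun s => (Finset.univ.filter (fun v => s v ≠ 1 / 2)).card) x0
  · intro i
    exact Finset.card_le_univ _
  · intro i
    exact infoLe_card (hchain i)

/-- the all-`1/2` assignment satisfies every gate when `ε ≥ 1/2`. -/
lemma sat_half (G : GenCircuit V) {ε : ℚ} (h2 : 1 / 2 ≤ ε) (v : V) (k : GateKind V)
    (hg : G.gate v = some k) : k.Sat ε (fun _ => 1 / 2) v := by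
  cases k with
  | const α =>
    simp only [GateKind.Sat]
    have hα := G.const_param v α hg
    rw [abs_le]; constructor <;> linarith [hα.1, hα.2]
  | scale α a =>
    simp only [GateKind.Sat]
    have hα := G.scale_param v α a hg
    rw [abs_le]; constructor <;> linarith [hα.1, hα.2]
  | copy a => simp only [GateKind.Sat]; rw [abs_le]; constructor <;> linarith
  | add a b =>
    simp only [GateKind.Sat]
    have : min ((1 : ℚ) / 2 + 1 / 2) 1 = 1 := by norm_num
    rw [this, abs_le]; constructor <;> linarith
  | sub a b =>
    simp only [GateKind.Sat]
    have : max ((1 : ℚ) / 2 - 1 / 2) 0 = 0 := by norm_num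
    rw [this, abs_le]; constructor <;> linarith
  | less a b =>
    simp only [GateKind.Sat]
    constructor <;> intro c <;> linarith
  | neg a =>
    simp only [GateKind.Sat]
    constructor <;> intro c <;> linarith
  | disj a b =>
    simp only [GateKind.Sat]
    constructor <;> intro c <;> linarith
  | conj a b =>
    simp only [GateKind.Sat]
    constructor <;> intro c <;> linarith

end Vale.Agent.P330
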