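import Mathlib
import Vale.Agent.P330.SixthDefs

/-!
Finite checks for the seven-state solver: order facts, monotonicity of the rules, and validity of
the value of the new state for the gate, for `1/6 ≤ ε < 1/4`.
-/

namespace Vale.Agent.P330

namespace St

theorem le_refl (a : St) : a.le a = true := by cases a <;> rfl

theorem mid_le (a : St) : St.mid.le a = true := by cases a <;> rfl

theorem le_trans {a b c : St} (h1 : a.le b = true) (h2 : b.le c = true) : a.le c = true := by
  cases a <;> cases b <;> cases c <;> first | rfl | (exfalso; revert h1 h2; decide)

theorem rank_lt {a b : St} (h : a.le b = true) (hne : a ≠ b) : a.rank < b.rank := by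
  cases a <;> cases b <;> first | (exfalso; exact hne rfl) | (exfalso; revert h; decide) | decide

theorem rank_le_three (a : St) : a.rank ≤ 3 := by cases a <;> decide

end St

theorem fAdd_mono {a a' b b' : St} (ha : a.le a' = true) (hb : b.le b' = true) :
    (fAdd a b).le (fAdd a' b') = true := by
  revert ha hb
  cases a <;> cases a' <;> cases b <;> cases b' <;> decide

theorem fSub_mono {a a' b b' : St} (ha : a.le a' = true) (hb : b.le b' = true) :
    (fSub a b).le (fSub a' b') = true := by
  revert ha hb
  cases a <;> cases a' <;> cases b <;> cases b' <;> decide

theorem fDisj_mono {a a' b b' : St} (ha : a.le a' = true) (hb : b.le b' = true) :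
    (fDisj a b).le (fDisj a' b') = true := by
  revert ha hb
  cases a <;> cases a' <;> cases b <;> cases b' <;> decide

theorem fConj_mono {a a' b b' : St} (ha : a.le a' = true) (hb : b.le b' = true) :
    (fConj a b).le (fConj a' b') = true := by
  revert ha hb
  cases a <;> cases a' <;> cases b <;> cases b' <;> decide

theorem fNeg_mono {a a' : St} (ha : a.le a' = true) : (fNeg a).le (fNeg a') = true := by
  revert ha
  cases a <;> cases a' <;> decide

theorem fScale_mono (ε α : ℚ) {a a' : St} (ha : a.le a' = true) :
    (fScale ε α a).le (fScale ε α a') = true := by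
  revert ha
  unfold fScale
  cases a <;> cases a' <;> intro ha <;> first
    | (exfalso; revert ha; decide)
    | (split_ifs <;> rfl)

theorem fLess_ge (ε : ℚ) (own a b : St) : own.le (fLess ε own a b) = true := by
  unfold fLess
  split_ifs with h
  · rw [h]; rfl
  · rw [h]; rfl
  · rw [h]; rfl
  · exact St.le_refl own

end Vale.Agent.P330
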