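import Mathlib
import Vale.Agent.P330.SixthDefs

/-!
Validity of the rules of the seven-state solver for `1/6 ≤ ε < 1/4`: the value of the new state is
an admissible output value of the gate for the values of the input states.
-/

namespace Vale.Agent.P330

theorem valid_add {ε : ℚ} (h1 : 1 / 6 ≤ ε) (h2 : ε < 1 / 4) (a b : St) :
    |(fAdd a b).val ε - min (a.val ε + b.val ε) 1| ≤ ε := by
  cases a <;> cases b <;>
    (simp only [fAdd, St.low, St.val, Bool.and_true, Bool.and_false,
      Bool.false_eq_true, if_true, if_false]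
     rw [abs_le, min_def]
     split_ifs <;> constructor <;> linarith)

theorem valid_sub {ε : ℚ} (h1 : 1 / 6 ≤ ε) (h2 : ε < 1 / 4) (a b : St) :
    |(fSub a b).val ε - max (a.val ε - b.val ε) 0| ≤ ε := by
  cases a <;> cases b <;>
    (simp only [fSub, St.val]
     rw [abs_le, max_def]
     split_ifs <;> constructor <;> linarith)

theorem valid_neg {ε : ℚ} (h1 : 1 / 6 ≤ ε) (h2 : ε < 1 / 4) (a : St) :
    (a.val ε ≤ ε → 1 - ε ≤ (fNeg a).val ε) ∧ (1 - ε ≤ a.val ε → (fNeg a).val ε ≤ ε) := by
  cases a <;> simp only [fNeg, St.val] <;> constructor <;> intro h <;> linarith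

theorem valid_disj {ε : ℚ} (h1 : 1 / 6 ≤ ε) (h2 : ε < 1 / 4) (a b : St) :
    ((1 - ε ≤ a.val ε ∨ 1 - ε ≤ b.val ε) → 1 - ε ≤ (fDisj a b).val ε) ∧
      ((a.val ε ≤ ε ∧ b.val ε ≤ ε) → (fDisj a b).val ε ≤ ε) := by
  constructor
  · rintro (h | h) <;> revert h <;> cases a <;> cases b <;>
      simp only [fDisj, St.eb, St.val, Bool.and_true, Bool.and_false, Bool.false_and,
        Bool.false_eq_true, if_true, if_false, reduceCtorEq, or_false, false_or, or_true,
        true_or] <;> intro h <;> linarith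
  · rintro ⟨h, h'⟩
    revert h h'
    cases a <;> cases b <;>
      simp only [fDisj, St.eb, St.val, Bool.and_true, Bool.and_false, Bool.false_and,
        Bool.false_eq_true, if_true, if_false, reduceCtorEq, or_false, false_or, or_true,
        true_or] <;> intro h h' <;> linarith

theorem valid_conj {ε : ℚ} (h1 : 1 / 6 ≤ ε) (h2 : ε < 1 / 4) (a b : St) :
    ((1 - ε ≤ a.val ε ∧ 1 - ε ≤ b.val ε) → 1 - ε ≤ (fConj a b).val ε) ∧
      ((a.val ε ≤ ε ∨ b.val ε ≤ ε) → (fConj a b).val ε ≤ ε) := by
  constructor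
  · rintro ⟨h, h'⟩
    revert h h'
    cases a <;> cases b <;>
      simp only [fConj, St.eb, St.val, Bool.or_true, Bool.or_false, Bool.true_or, Bool.false_or,
        Bool.false_eq_true, if_true, if_false, reduceCtorEq, and_false, false_and, and_true,
        true_and] <;> intro h h' <;> linarith
  · rintro (h | h) <;> revert h <;> cases a <;> cases b <;>
      simp only [fConj, St.eb, St.val, Bool.or_true, Bool.or_false, Bool.true_or, Bool.false_or,
        Bool.false_eq_true, if_true, if_false, reduceCtorEq, and_false, false_and, and_true,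
        true_and] <;> intro h <;> linarith

theorem valid_const {ε α : ℚ} (h1 : 1 / 6 ≤ ε) (h0 : 0 ≤ α) (h1' : α ≤ 1) :
    |(fConst ε α).val ε - α| ≤ ε := by
  unfold fConst
  split_ifs <;> simp only [St.val] <;> rw [abs_le] <;> constructor <;> linarith

theorem valid_scale {ε α : ℚ} (h1 : 1 / 6 ≤ ε) (h2 : ε < 1 / 4) (h0 : 0 ≤ α) (h1' : α ≤ 1)
    (a : St) : |(fScale ε α a).val ε - α * a.val ε| ≤ ε := by
  have hε : 0 < ε := by linarith
  have hp0 : 0 ≤ α * ε := mul_nonneg h0 hε.le
  have hp1 : α * ε ≤ ε := by nlinarith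
  have hp4 : 4 * (α * ε) ≤ α := by nlinarith
  have hp6 : α ≤ 6 * (α * ε) := by nlinarith
  have hA : α - 3 * (α * ε) ≤ 1 - 3 * ε := by nlinarith
  have hB : α / 2 - α * ε ≤ 1 / 2 - ε := by nlinarith
  unfold fScale
  by_cases hc : 2 * α < 1
  · have hC : 2 * (α * ε) ≤ ε := by nlinarith
    rw [if_pos hc]
    cases a <;> simp only [] <;> (try split_ifs) <;> simp only [St.val] <;> rw [abs_le] <;>
      constructor <;> linarith
  · have hC : ε ≤ 2 * (α * ε) := by nlinarith
    rw [if_neg hc]
    cases a <;> simp only [] <;> (try split_ifs) <;> simp only [St.val] <;> rw [abs_le] <;>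
      constructor <;> linarith

/-- An upper bound for the values of all states above a given state. -/
def St.hiFut (ε : ℚ) : St → ℚ
  | .mid => 1 - ε
  | .lo => 1 - 3 * ε
  | .sp => 1 - 3 * ε
  | .lo2 => ε
  | .sq => 1 - 3 * ε
  | .tri => 1 - ε
  | .hi => 1 - ε

/-- A lower bound for the values of all states above a given state. -/
def St.loFut (ε : ℚ) : St → ℚ
  | .mid => ε
  | .lo => ε
  | .sp => ε
  | .lo2 => ε
  | .sq => 1 - 3 * ε
  | .tri => 3 * ε
  | .hi => 1 - ε

theorem val_le_hiFut {ε : ℚ} (h1 : 1 / 6 ≤ ε) (h2 : ε < 1 / 4) {a a' : St}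
    (ha : a.le a' = true) : a'.val ε ≤ a.hiFut ε := by
  revert ha
  cases a <;> cases a' <;> simp only [St.le, St.val, St.hiFut] <;> intro ha <;> first
    | (exfalso; exact Bool.false_ne_true ha)
    | linarith

theorem loFut_le_val {ε : ℚ} (h1 : 1 / 6 ≤ ε) (h2 : ε < 1 / 4) {a a' : St}
    (ha : a.le a' = true) : a.loFut ε ≤ a'.val ε := by
  revert ha
  cases a <;> cases a' <;> simp only [St.le, St.val, St.loFut] <;> intro ha <;> first
    | (exfalso; exact Bool.false_ne_true ha)
    | linarith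

theorem hiFut_le_loFut {ε : ℚ} (h1 : 1 / 6 ≤ ε) (h2 : ε < 1 / 4) {a b : St}
    (h : a.val ε < b.val ε - ε) : a.hiFut ε ≤ b.loFut ε + ε := by
  revert h
  cases a <;> cases b <;> simp only [St.val, St.hiFut, St.loFut] <;> intro h <;> linarith

/-- Safety of a committed comparison: if the first input is visibly below the second one, then it
is never visibly above it later. -/
theorem less_safe {ε : ℚ} (h1 : 1 / 6 ≤ ε) (h2 : ε < 1 / 4) {a a' b b' : St}
    (ha : a.le a' = true) (hb : b.le b' = true) (h : a.val ε < b.val ε - ε) :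
    a'.val ε ≤ b'.val ε + ε := by
  have e1 := val_le_hiFut h1 h2 ha
  have e2 := loFut_le_val h1 h2 hb
  have e3 := hiFut_le_loFut h1 h2 h
  linarith

end Vale.Agent.P330
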