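import Mathlib
import Vale.Agent.P330.Quarter
import Vale.Agent.P330.SixthTables
import Vale.Agent.P330.SixthValid

/-!
The seven-state iteration stabilises and its limit satisfies every gate, for `1/6 ≤ ε < 1/4`.
-/

namespace Vale.Agent.P330

variable {V : Type}

/-- Pointwise order on state assignments. -/
def StLe (s s' : V → St) : Prop := ∀ v, (s v).le (s' v) = true

theorem St.rank_le {a c : St} (h : a.le c = true) : a.rank ≤ c.rank := by
  by_cases hne : a = c
  · rw [hne]
  · exact (St.rank_lt h hne).le

theorem stRound_step (G : GenCircuit V) (ε : ℚ) {s : V → St} (h : StLe s (G.stRound ε s)) :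
    StLe (G.stRound ε s) (G.stRound ε (G.stRound ε s)) := by
  intro v
  show (stRule ε s v (G.gate v)).le (stRule ε (G.stRound ε s) v (G.gate v)) = true
  have hv : G.stRound ε s v = stRule ε s v (G.gate v) := rfl
  rcases hg : G.gate v with _ | k
  · rw [hg] at hv
    simp only [stRule] at hv ⊢
    rw [hv]
    exact St.le_refl _
  · rw [hg] at hv
    cases k with
    | const α => exact St.le_refl _
    | scale α a => exact fScale_mono ε α (h a)
    | copy a => exact h a
    | add a c => exact fAdd_mono (h a) (h c)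
    | sub a c => exact fSub_mono (h a) (h c)
    | less a c =>
      simp only [stRule] at hv ⊢
      rw [hv]
      exact fLess_ge ε _ _ _
    | neg a => exact fNeg_mono (h a)
    | disj a c => exact fDisj_mono (h a) (h c)
    | conj a c => exact fConj_mono (h a) (h c)

theorem stRound_chain (G : GenCircuit V) (ε : ℚ) (i : ℕ) :
    StLe ((G.stRound ε)^[i] (fun _ => St.mid)) ((G.stRound ε)^[i + 1] (fun _ => St.mid)) := by
  induction i with
  | zero => intro v; exact St.mid_le _
  | succ i ih =>
    rw [Function.iterate_succ_apply'] at ih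
    rw [Function.iterate_succ_apply', Function.iterate_succ_apply', Function.iterate_succ_apply']
    exact stRound_step G ε ih

theorem stSolve_fixed [Fintype V] (G : GenCircuit V) (ε : ℚ) :
    G.stRound ε (G.stSolve ε) = G.stSolve ε := by
  unfold GenCircuit.stSolve
  apply iterate_stabilises (G.stRound ε) (fun s => ∑ v, (s v).rank)
  · intro i
    calc ∑ v, (((G.stRound ε)^[i] fun _ => St.mid) v).rank ≤ ∑ _v : V, 3 :=
          Finset.sum_le_sum (fun v _ => St.rank_le_three _)
      _ = 3 * Fintype.card V := by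
          rw [Finset.sum_const, Finset.card_univ, smul_eq_mul, mul_comm]
  · intro i
    have hc := stRound_chain G ε i
    by_cases heq : (G.stRound ε)^[i + 1] (fun _ => St.mid) = (G.stRound ε)^[i] (fun _ => St.mid)
    · left; exact heq
    · right
      have : ∃ v, (G.stRound ε)^[i + 1] (fun _ => St.mid) v ≠ (G.stRound ε)^[i] (fun _ => St.mid) v := by
        by_contra hcon
        apply heq
        funext v
        by_contra hv
        exact hcon ⟨v, hv⟩
      obtain ⟨v, hv⟩ := this
      apply Finset.sum_lt_sum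
      · intro w _
        exact St.rank_le (hc w)
      · exact ⟨v, Finset.mem_univ v, St.rank_lt (hc v) (fun h => hv h.symm)⟩

/-- The invariant of the comparison gates: a committed output stays admissible for all later
states of the inputs. -/
def LessInv (G : GenCircuit V) (ε : ℚ) (s : V → St) : Prop :=
  ∀ v a c, G.gate v = some (.less a c) →
    (s v = St.mid ∨
      (s v = St.hi ∧ ∀ a' c' : St, (s a).le a' = true → (s c).le c' = true →
        a'.val ε ≤ c'.val ε + ε) ∨
      (s v = St.lo ∧ ∀ a' c' : St, (s a).le a' = true → (s c).le c' = true →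
        c'.val ε ≤ a'.val ε + ε))

theorem lessInv_step (G : GenCircuit V) {ε : ℚ} (h1 : 1 / 6 ≤ ε) (h2 : ε < 1 / 4) {s : V → St}
    (hle : StLe s (G.stRound ε s)) (hinv : LessInv G ε s) : LessInv G ε (G.stRound ε s) := by
  intro v a c hg
  have hv : G.stRound ε s v = fLess ε (s v) (s a) (s c) := by
    show stRule ε s v (G.gate v) = _
    rw [hg]
    rfl
  rcases hinv v a c hg with h | ⟨h, hs⟩ | ⟨h, hs⟩
  · rw [hv, h]
    unfold fLess
    rw [if_pos rfl]
    by_cases c1 : (s a).val ε < (s c).val ε - ε
    · right; left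
      rw [if_pos c1]
      refine ⟨rfl, fun a' c' ha hc => ?_⟩
      exact less_safe h1 h2 (St.le_trans (hle a) ha) (St.le_trans (hle c) hc) c1
    · rw [if_neg c1]
      by_cases c2 : (s c).val ε + ε < (s a).val ε
      · right; right
        rw [if_pos c2]
        refine ⟨rfl, fun a' c' ha hc => ?_⟩
        exact less_safe h1 h2 (St.le_trans (hle c) hc) (St.le_trans (hle a) ha) (by linarith)
      · left
        rw [if_neg c2]
  · right; left
    refine ⟨?_, fun a' c' ha hc => hs a' c' (St.le_trans (hle a) ha) (St.le_trans (hle c) hc)⟩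
    rw [hv, h]
    rfl
  · right; right
    refine ⟨?_, fun a' c' ha hc => hs a' c' (St.le_trans (hle a) ha) (St.le_trans (hle c) hc)⟩
    rw [hv, h]
    rfl

theorem lessInv_iterate (G : GenCircuit V) {ε : ℚ} (h1 : 1 / 6 ≤ ε) (h2 : ε < 1 / 4) (i : ℕ) :
    LessInv G ε ((G.stRound ε)^[i] (fun _ => St.mid)) := by
  induction i with
  | zero => intro v a c _; left; rfl
  | succ i ih =>
    rw [Function.iterate_succ_apply']
    have hc := stRound_chain G ε i
    rw [Function.iterate_succ_apply'] at hc
    exact lessInv_step G h1 h2 hc ih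

/-- For `1/6 ≤ ε < 1/4` the assignment `G.solve6 ε` satisfies every gate. -/
theorem solve6_sat [Fintype V] (G : GenCircuit V) {ε : ℚ} (h1 : 1 / 6 ≤ ε) (h2 : ε < 1 / 4)
    (v : V) (k : GateKind V) (hg : G.gate v = some k) : k.Sat ε (G.solve6 ε) v := by
  have hfix := stSolve_fixed G ε
  have hinv : LessInv G ε (G.stSolve ε) := lessInv_iterate G h1 h2 _
  have hv : G.stSolve ε v = stRule ε (G.stSolve ε) v (G.gate v) := (congrFun hfix v).symm
  rw [hg] at hv
  cases k with
  | const α =>
    obtain ⟨p0, p1⟩ := G.const_param v α hg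
    show |(G.stSolve ε v).val ε - α| ≤ ε
    rw [hv]
    exact valid_const h1 p0 p1
  | scale α a =>
    obtain ⟨p0, p1⟩ := G.scale_param v α a hg
    show |(G.stSolve ε v).val ε - α * (G.stSolve ε a).val ε| ≤ ε
    rw [hv]
    exact valid_scale h1 h2 p0 p1 _
  | copy a =>
    show |(G.stSolve ε v).val ε - (G.stSolve ε a).val ε| ≤ ε
    rw [hv]
    simp only [stRule, sub_self, abs_zero]
    linarith
  | add a c =>
    show |(G.stSolve ε v).val ε - min ((G.stSolve ε a).val ε + (G.stSolve ε c).val ε) 1| ≤ ε
    rw [hv]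
    exact valid_add h1 h2 _ _
  | sub a c =>
    show |(G.stSolve ε v).val ε - max ((G.stSolve ε a).val ε - (G.stSolve ε c).val ε) 0| ≤ ε
    rw [hv]
    exact valid_sub h1 h2 _ _
  | less a c =>
    show ((G.stSolve ε a).val ε < (G.stSolve ε c).val ε - ε → 1 - ε ≤ (G.stSolve ε v).val ε) ∧
      ((G.stSolve ε c).val ε + ε < (G.stSolve ε a).val ε → (G.stSolve ε v).val ε ≤ ε)
    rcases hinv v a c hg with h | ⟨h, hs⟩ | ⟨h, hs⟩
    · simp only [stRule] at hv
      rw [h] at hv
      unfold fLess at hv
      rw [if_pos rfl] at hv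
      constructor
      · intro c1
        rw [if_pos c1] at hv
        exact absurd hv (by decide)
      · intro c2
        have c1 : ¬ (G.stSolve ε a).val ε < (G.stSolve ε c).val ε - ε := by
          intro c1; linarith
        rw [if_neg c1, if_pos c2] at hv
        exact absurd hv (by decide)
    · have := hs _ _ (St.le_refl _) (St.le_refl _)
      rw [h]
      constructor
      · intro _; exact le_refl _
      · intro c2; exfalso; linarith
    · have := hs _ _ (St.le_refl _) (St.le_refl _)
      rw [h]
      constructor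
      · intro c1; exfalso; linarith
      · intro _; exact le_refl _
  | neg a =>
    show ((G.stSolve ε a).val ε ≤ ε → 1 - ε ≤ (G.stSolve ε v).val ε) ∧
      (1 - ε ≤ (G.stSolve ε a).val ε → (G.stSolve ε v).val ε ≤ ε)
    rw [hv]
    exact valid_neg h1 h2 _
  | disj a c =>
    show ((1 - ε ≤ (G.stSolve ε a).val ε ∨ 1 - ε ≤ (G.stSolve ε c).val ε) →
        1 - ε ≤ (G.stSolve ε v).val ε) ∧
      (((G.stSolve ε a).val ε ≤ ε ∧ (G.stSolve ε c).val ε ≤ ε) → (G.stSolve ε v).val ε ≤ ε)
    rw [hv]
    exact valid_disj h1 h2 _ _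
  | conj a c =>
    show ((1 - ε ≤ (G.stSolve ε a).val ε ∧ 1 - ε ≤ (G.stSolve ε c).val ε) →
        1 - ε ≤ (G.stSolve ε v).val ε) ∧
      (((G.stSolve ε a).val ε ≤ ε ∨ (G.stSolve ε c).val ε ≤ ε) → (G.stSolve ε v).val ε ≤ ε)
    rw [hv]
    exact valid_conj h1 h2 _ _

theorem St.val_mem {ε : ℚ} (h1 : 1 / 6 ≤ ε) (h2 : ε < 1 / 4) (a : St) :
    0 ≤ a.val ε ∧ a.val ε ≤ 1 := by
  cases a <;> simp only [St.val] <;> constructor <;> linarith

end Vale.Agent.P330
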